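import Vale.Agent.P076.X.Spec
import Vale.Agent.P076.H23.Defs

/-! # P076 / TS.SLAB : statements of the thick slab chain `StX2 ⇒ StBS` (helper523; form of helper21, #6182)

`x 0` is the wide direction (frequency `|η 0| ≤ 1`), `x 1` the normal direction (frequency `|η 1| ≤ w`). -/

set_option linter.all false

open MeasureTheory Complex FourierTransform Vale.Agent.P122.C2 Vale.Agent.P076.ASM Vale.Agent.P076.H23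

namespace Vale.Agent.P076.H523

/-- normally resolved energy density at `(x, t)`: window `T` in `x 0`, window `1/w` in `x 1`, one time -/
noncomputable def eG (T w : ℝ) (G : E 2 → ℂ) (x : E 2) (t : ℝ) : ℝ :=
  w * ∫ p : E 2, ((1 + w * |x 1 - p 1|) ^ 4)⁻¹ * X.W T (x 0 - p 0) * ‖evo G p t 0‖ ^ 2

/-- at most one point in each `T × T` block of the `(x 0, t)`-plane (`x 1` arbitrary), times in `[0, R]` -/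
structure Blk (T R : ℝ) (P : Finset Ix) (x : Ix → E 2) (t : Ix → ℝ) : Prop where
  t0 : ∀ i ∈ P, 0 ≤ t i
  tR : ∀ i ∈ P, t i ≤ R
  one : ∀ i ∈ P, ∀ j ∈ P, ⌊x i 0 / T⌋ = ⌊x j 0 / T⌋ → ⌊t i / T⌋ = ⌊t j / T⌋ → i = j

/-- [LOW1] (helper21) energy count with normally resolved energy -/
def StLOW1 : Prop := ∃ C : ℝ, ∀ (R T w : ℝ) (G : E 2 → ℂ) (P : Finset Ix) (x : Ix → E 2) (t : Ix → ℝ),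
  1 ≤ T → T ≤ R → R ≤ T ^ 2 → 0 < w → w ≤ 1 → T * w ^ 2 ≤ 1 → Str w G → Blk T R P x t →
    ∑ i ∈ P, eG T w G (x i) (t i) ≤ C * Real.sqrt R / T ^ 2 * ∫ η, ‖G η‖ ^ 2

/-- [LOW2] (helper21) transversal gain -/
def StLOW2 : Prop := ∀ ν : ℝ, 0 < ν → ∃ C : ℝ, ∀ (R T w a Λ : ℝ) (G₁ G₂ : E 2 → ℂ) (P : Finset Ix) (x : Ix → E 2)
  (t : Ix → ℝ), 1 ≤ T → T ≤ R → R ≤ T ^ 2 → 0 < w → w ≤ 1 → T * w ^ 2 ≤ 1 → Str w G₁ → Str w G₂ →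
    (∀ η, G₁ η ≠ 0 → η 0 ≤ a) → (∀ η, G₂ η ≠ 0 → a + ν ≤ η 0) → Blk T R P x t → 0 ≤ Λ →
    (∀ i ∈ P, Λ ≤ eG T w G₁ (x i) (t i) ∧ Λ ≤ eG T w G₂ (x i) (t i)) →
      P.card * Λ ≤ C * (P.card * T ^ 2 / R ^ 2) ^ (1 / 4 : ℝ) * Real.sqrt R / T ^ 2 *
        ((∫ η, ‖G₁ η‖ ^ 2) + ∫ η, ‖G₂ η‖ ^ 2)

/-- slice profile: Taylor index `j`, line `x 1 = y`, base time `τ` (time origin moved to `τ`) -/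
noncomputable def sl (S : ℝ) (j : ℕ) (y τ : ℝ) (G : E 2 → ℂ) (ξ : ℝ) : ℂ :=
  X.ex (-(τ * ξ ^ 2)) * ∫ ζ : ℝ, G (WithLp.toLp 2 ![ξ, ζ]) * (((64 * S * ζ) ^ j : ℝ) : ℂ) * X.ex (y * ζ - τ * ζ ^ 2)

/-- [TAY] (helper457) Taylor expansion in `(x 1, t)` on a block of size `S × S²` -/
def StTAY : Prop := ∃ c : ℝ, 0 < c ∧ ∀ (S w y τ α : ℝ) (G : E 2 → ℂ) (x : E 2) (t : ℝ), 0 < S → S * w ≤ 1 / 128 →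
  Str w G → |x 1 - y| ≤ S → |t - τ| ≤ S ^ 2 → 0 < α → α ≤ ‖evo G x t 0‖ →
    ∃ j : ℕ, c * 8 ^ j * α ≤ ‖X.sol (sl S j y τ G) (x 0) (t - τ)‖

/-- [EN] (helper457) energy of the slices -/
def StEN : Prop := ∃ C : ℝ, 0 < C ∧ ∀ (S T w y τ : ℝ) (G : E 2 → ℂ) (x : E 2) (t : ℝ) (j : ℕ), 0 < S → S ≤ T →
  1 / 256 ≤ S * w → S * w ≤ 1 / 128 → Str w G → |x 1 - y| ≤ S → |t - τ| ≤ S ^ 2 →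
    ∫ x', X.W T (x 0 - x') * ‖X.sol (sl S j y τ G) x' (t - τ)‖ ^ 2 ≤ C * eG T w G x t

/-- [PAR] (helper457) Parseval in the normal direction; regularity of the slice profiles -/
def StPAR : Prop := ∃ C : ℝ, 0 < C ∧ ∀ (S w τ : ℝ) (G : E 2 → ℂ) (j : ℕ), 0 < S → 0 < w → S * w ≤ 1 / 128 → Str w G →
  (∀ y : ℝ, Measurable (sl S j y τ G) ∧ (∃ M, ∀ ξ, ‖sl S j y τ G ξ‖ ≤ M) ∧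
    ∀ ξ, sl S j y τ G ξ ≠ 0 → ∃ ζ, G (WithLp.toLp 2 ![ξ, ζ]) ≠ 0) ∧
  ∀ J : Finset ℤ, ∑ k ∈ J, X.ms (sl S j (k * S) τ G) ≤ C * (1 / 4) ^ j / S * ∫ η, ‖G η‖ ^ 2

/-- [CRUDE] (helper596) `StX2` with the local energy at a coarser scale `T ≥ S = 2^m`, outside few `S`-squares
`B₁ g₁ Y₁`, `B₂ g₂ Y₂`, each depending on one profile only (not on the point set); `N₀` is absolute (chosen before the bumps) -/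
def StCR : Prop := ∃ N₀ : ℕ, ∀ ψ₁ ψ₂ : ℝ → ℝ, X.Bump ψ₁ → X.Bump ψ₂ →
  ∀ δ : ℝ, 0 < δ → (∀ ξ ξ', ψ₁ ξ ≠ 0 → ψ₂ ξ' ≠ 0 → δ ≤ |ξ - ξ'|) →
  ∃ C : ℝ, 1 ≤ C ∧ ∀ (m : ℕ) (T α : ℝ), (2:ℝ) ^ m ≤ T → 0 < α →
  ∃ B₁ B₂ : (ℝ → ℂ) → ℝ → Finset (ℤ × ℤ),
  (∀ (g : ℝ → ℂ) (Y : ℝ), Measurable g → (∃ M, ∀ ξ, ‖g ξ‖ ≤ M) → (∀ ξ, g ξ ≠ 0 → |ξ| ≤ 1) → 0 < Y →
    C * (T / 2 ^ m) ^ N₀ * Y ≤ α ^ 2 →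
      α ^ 2 * (B₁ g Y).card ≤ C * (T / 2 ^ m) ^ N₀ * X.ms g ∧ α ^ 2 * (B₂ g Y).card ≤ C * (T / 2 ^ m) ^ N₀ * X.ms g) ∧
  ∀ g₁ g₂ : ℝ → ℂ, Measurable g₁ → Measurable g₂ →
  (∃ M, ∀ ξ, ‖g₁ ξ‖ ≤ M) → (∃ M, ∀ ξ, ‖g₂ ξ‖ ≤ M) →
  (∀ ξ, g₁ ξ ≠ 0 → |ξ| ≤ 1) → (∀ ξ, g₂ ξ ≠ 0 → |ξ| ≤ 1) →
  ∀ Y₁ Y₂ : ℝ, 0 < Y₁ → 0 < Y₂ → C * (T / 2 ^ m) ^ N₀ * Y₁ ≤ α ^ 2 → C * (T / 2 ^ m) ^ N₀ * Y₂ ≤ α ^ 2 →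
  ∀ E : Finset (ℝ × ℝ),
  (∀ z ∈ E, ∀ z' ∈ E, z ≠ z' → 1 ≤ |z.1 - z'.1| ∨ 1 ≤ |z.2 - z'.2|) →
  (∀ z ∈ E, 0 ≤ z.2 ∧ z.2 < (4:ℝ) ^ m ∧
    α ≤ ‖X.sol (fun ξ => ψ₁ ξ * g₁ ξ) z.1 z.2‖ ∧ α ≤ ‖X.sol (fun ξ => ψ₂ ξ * g₂ ξ) z.1 z.2‖ ∧
    ∫ x, X.W T (z.1 - x) * ‖X.sol g₁ x z.2‖ ^ 2 ≤ Y₁ ∧
    ∫ x, X.W T (z.1 - x) * ‖X.sol g₂ x z.2‖ ^ 2 ≤ Y₂ ∧
    (⌊z.1 / 2 ^ m⌋, ⌊z.2 / 2 ^ m⌋) ∉ B₁ g₁ Y₁ ∧ (⌊z.1 / 2 ^ m⌋, ⌊z.2 / 2 ^ m⌋) ∉ B₂ g₂ Y₂) →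
  α ^ 2 * E.card ≤ C * (Y₁ * Y₂ / α ^ 4) * (4:ℝ) ^ m * (X.ms g₁ + X.ms g₂)

/-- localised broad slab: all points in one normal window of length `R^(1/2 + c₂)`, strip of width `R^(c₁ - 1/2)`, `c₁ < c₂` -/
def StBSL : Prop := ∃ c₁ c₂ δ : ℝ, 0 < c₁ ∧ c₁ < c₂ ∧ c₂ < 1 / 8 ∧ 0 < δ ∧ ∀ ν : ℝ, 0 < ν → ∃ C : ℝ, ∀ (R g α a y₀ : ℝ)
  (G₁ G₂ : E 2 → ℂ) (A : Finset Ix) (x : Ix → E 2) (t : Ix → ℝ), 1 ≤ R → 1 ≤ g → g ≤ R ^ (12 / 25 : ℝ) → 0 ≤ α →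
    Str (R ^ (c₁ - 1 / 2)) G₁ → Str (R ^ (c₁ - 1 / 2)) G₂ →
    (∀ η, G₁ η ≠ 0 → η 0 ≤ a) → (∀ η, G₂ η ≠ 0 → a + ν ≤ η 0) → Pt g R A x t →
    (∀ i ∈ A, |x i 1 - y₀| ≤ R ^ (1 / 2 + c₂)) →
    (∀ i ∈ A, α ≤ ‖evo G₁ (x i) (t i) 0‖ ∧ α ≤ ‖evo G₂ (x i) (t i) 0‖) →
      α ^ 2 * A.card ≤ C * (g * R) ^ (2 / 3 : ℝ) * (min 1 ((A.card : ℝ) / (g * R ^ 2))) ^ δ *
        ((∫ η, ‖G₁ η‖ ^ 2) + ∫ η, ‖G₂ η‖ ^ 2)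

/-- [YLOC] (helper551) -/
def StYLOC : Prop := StBSL → StBS

/-- [ASM] (helper523, helper874) -/
def StSLAB : Prop := StLOW1 → StLOW2 → StTAY → StEN → StPAR → StCR → StBSL

end Vale.Agent.P076.H523
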