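import Vale.Agent.P076.X.Defs
import Vale.Agent.P076.X.Spec

/-! # P076 / TS.SLAB : finite family of pairs of bumps (helper523) -/

set_option linter.all false

namespace Vale.Agent.P076.H523

/-- smooth bump: `1` on `[p, q]`, supported in `(p - r, q + r)` -/
theorem bump1 (p q r : ℝ) (hpq : p < q) (hr : 0 < r) : ∃ ψ : ℝ → ℝ, X.Bump ψ ∧
    (∀ ξ, p ≤ ξ → ξ ≤ q → ψ ξ = 1) ∧ ∀ ξ, ψ ξ ≠ 0 → p - r < ξ ∧ ξ < q + r := by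
  let f : ContDiffBump ((p + q) / 2) := ⟨(q - p) / 2, (q - p) / 2 + r, by linarith, by linarith⟩
  refine ⟨f, ⟨f.contDiff, f.hasCompactSupport⟩, ?_, ?_⟩
  · intro ξ h1 h2
    refine f.one_of_mem_closedBall ?_
    rw [Metric.mem_closedBall, Real.dist_eq, abs_le]
    show -((q - p) / 2) ≤ _ ∧ _ ≤ (q - p) / 2
    constructor <;> linarith
  · intro ξ h
    have h1 : ξ ∈ Function.support f := h
    rw [f.support_eq, Metric.mem_ball, Real.dist_eq, abs_lt] at h1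
    have h2 : -((q - p) / 2 + r) < ξ - (p + q) / 2 ∧ ξ - (p + q) / 2 < (q - p) / 2 + r := h1
    constructor <;> linarith [h2.1, h2.2]

theorem bumps (ν : ℝ) (hν : 0 < ν) : ∃ (K : Finset ℤ) (Ψ₁ Ψ₂ : ℤ → ℝ → ℝ),
    (∀ k, X.Bump (Ψ₁ k) ∧ X.Bump (Ψ₂ k)) ∧
    (∀ k ξ ξ', Ψ₁ k ξ ≠ 0 → Ψ₂ k ξ' ≠ 0 → ν / 4 ≤ |ξ - ξ'|) ∧
    ∀ a, -1 ≤ a → a ≤ 1 → ∃ k ∈ K, (∀ ξ, -1 ≤ ξ → ξ ≤ a → Ψ₁ k ξ = 1) ∧
      ∀ ξ, a + ν ≤ ξ → ξ ≤ 1 → Ψ₂ k ξ = 1 := by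
  have h1 : ∀ k : ℤ, ∃ ψ : ℝ → ℝ, X.Bump ψ ∧
      (∀ ξ, -(1 + |((k : ℝ) + 1) * ν / 4|) ≤ ξ → ξ ≤ ((k : ℝ) + 1) * ν / 4 → ψ ξ = 1) ∧
      ∀ ξ, ψ ξ ≠ 0 → -(1 + |((k : ℝ) + 1) * ν / 4|) - ν / 4 < ξ ∧ ξ < ((k : ℝ) + 1) * ν / 4 + ν / 4 := by
    intro k
    refine bump1 _ _ _ ?_ (by linarith)
    have := neg_abs_le (((k : ℝ) + 1) * ν / 4)
    linarith
  have h2 : ∀ k : ℤ, ∃ ψ : ℝ → ℝ, X.Bump ψ ∧
      (∀ ξ, ((k : ℝ) + 4) * ν / 4 ≤ ξ → ξ ≤ 1 + |((k : ℝ) + 4) * ν / 4| → ψ ξ = 1) ∧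
      ∀ ξ, ψ ξ ≠ 0 → ((k : ℝ) + 4) * ν / 4 - ν / 4 < ξ ∧ ξ < 1 + |((k : ℝ) + 4) * ν / 4| + ν / 4 := by
    intro k
    refine bump1 _ _ _ ?_ (by linarith)
    have := le_abs_self (((k : ℝ) + 4) * ν / 4)
    linarith
  choose Ψ₁ hB₁ hO₁ hS₁ using h1
  choose Ψ₂ hB₂ hO₂ hS₂ using h2
  refine ⟨Finset.Icc ⌊-1 / (ν / 4)⌋ ⌊1 / (ν / 4)⌋, Ψ₁, Ψ₂, fun k => ⟨hB₁ k, hB₂ k⟩, ?_, ?_⟩
  · intro k ξ ξ' h h'
    have a1 := (hS₁ k ξ h).2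
    have a2 := (hS₂ k ξ' h').1
    rw [abs_sub_comm, le_abs]
    left; linarith
  · intro a ha1 ha2
    have hν4 : 0 < ν / 4 := by linarith
    refine ⟨⌊a / (ν / 4)⌋, ?_, ?_, ?_⟩
    · rw [Finset.mem_Icc]
      exact ⟨Int.floor_le_floor (div_le_div_of_nonneg_right ha1 hν4.le),
        Int.floor_le_floor (div_le_div_of_nonneg_right ha2 hν4.le)⟩
    · intro ξ h1 h2
      have b1 := Int.lt_floor_add_one (a / (ν / 4))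
      rw [div_lt_iff₀ hν4] at b1
      refine hO₁ _ ξ ?_ ?_
      · have := abs_nonneg (((⌊a / (ν / 4)⌋ : ℝ) + 1) * ν / 4)
        linarith
      · linarith
    · intro ξ h1 h2
      have b1 := Int.floor_le (a / (ν / 4))
      rw [le_div_iff₀ hν4] at b1
      refine hO₂ _ ξ ?_ ?_
      · linarith
      · have := abs_nonneg (((⌊a / (ν / 4)⌋ : ℝ) + 4) * ν / 4)
        linarith

end Vale.Agent.P076.H523
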