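import Mathlib

/-! # P076 / TS.SLAB : counting lemmas (helper523) -/

set_option linter.all false

namespace Vale.Agent.P076.H523

theorem par_sep {u v : ℝ} (h : ⌊u⌋ % 2 = ⌊v⌋ % 2) (hne : ⌊u⌋ ≠ ⌊v⌋) : 1 ≤ |u - v| := by
  have h1 := Int.floor_le u
  have h2 := Int.lt_floor_add_one u
  have h3 := Int.floor_le v
  have h4 := Int.lt_floor_add_one v
  rcases lt_or_gt_of_ne hne with hlt | hlt
  · have h5 : ⌊u⌋ + 2 ≤ ⌊v⌋ := by omega
    have h6 : (⌊u⌋ : ℝ) + 2 ≤ ⌊v⌋ := by exact_mod_cast h5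
    rw [abs_sub_comm, le_abs]
    left; linarith
  · have h5 : ⌊v⌋ + 2 ≤ ⌊u⌋ := by omega
    have h6 : (⌊v⌋ : ℝ) + 2 ≤ ⌊u⌋ := by exact_mod_cast h5
    rw [le_abs]
    left; linarith

/-- the image of a unit-separated family -/
theorem img {ι : Type*} (A : Finset ι) (u v : ι → ℝ)
    (h : ∀ i ∈ A, ∀ j ∈ A, i ≠ j → 1 ≤ |u i - u j| ∨ 1 ≤ |v i - v j|) :
    ∃ E : Finset (ℝ × ℝ), E.card = A.card ∧ (∀ z ∈ E, ∃ i ∈ A, z = (u i, v i)) ∧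
      ∀ z ∈ E, ∀ z' ∈ E, z ≠ z' → 1 ≤ |z.1 - z'.1| ∨ 1 ≤ |z.2 - z'.2| := by
  classical
  refine ⟨A.image fun i => (u i, v i), ?_, ?_, ?_⟩
  · refine Finset.card_image_of_injOn ?_
    intro i hi j hj hij
    by_contra hne
    simp only [Prod.mk.injEq] at hij
    rcases h i hi j hj hne with h1 | h1
    · rw [hij.1] at h1; norm_num at h1
    · rw [hij.2] at h1; norm_num at h1
  · intro z hz
    rw [Finset.mem_image] at hz
    obtain ⟨i, hi, rfl⟩ := hz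
    exact ⟨i, hi, rfl⟩
  · intro z hz z' hz' hne
    rw [Finset.mem_image] at hz hz'
    obtain ⟨i, hi, rfl⟩ := hz
    obtain ⟨j, hj, rfl⟩ := hz'
    refine h i hi j hj ?_
    rintro rfl
    exact hne rfl

theorem geo_le {q : ℝ} (h0 : 0 ≤ q) (h1 : q ≤ 1 / 2) (N : ℕ) : ∑ j ∈ Finset.range N, q ^ j ≤ 2 := by
  have hq : q < 1 := by linarith
  calc ∑ j ∈ Finset.range N, q ^ j ≤ ∑' j : ℕ, q ^ j :=
        (summable_geometric_of_lt_one h0 hq).sum_le_tsum _ fun j _ => pow_nonneg h0 j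
    _ = (1 - q)⁻¹ := tsum_geometric_of_lt_one h0 hq
    _ ≤ 2 := by
        rw [inv_le_comm₀ (by linarith) (by norm_num)]
        linarith

/-- sum over the classes (good points) -/
theorem sumG {ι : Type*} (A : Finset ι) (n J : ι → ℤ) (κ : ι → ℤ × ℤ × ℤ) (j₁ j₂ : ι → ℕ) (Nf : Finset ℤ)
    (Kf : Finset (ℤ × ℤ × ℤ)) (a K P : ℝ) (m₁ m₂ : ℤ → ℤ → ℕ → ℝ) (hn : ∀ i ∈ A, n i ∈ Nf)
    (hκ : ∀ i ∈ A, κ i ∈ Kf) (hK : 0 ≤ K) (hP : 0 ≤ P)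
    (hm : ∀ n₀ p q, ∀ Jf : Finset ℤ, ∑ J₀ ∈ Jf, (m₁ n₀ J₀ p + m₂ n₀ J₀ q) ≤ P)
    (hc : ∀ n₀ J₀ κ₀ p q, a * ((A.filter fun i => n i = n₀ ∧ κ i = κ₀ ∧ j₁ i = p ∧ j₂ i = q ∧ J i = J₀).card : ℝ) ≤
      K * (1 / 64) ^ p * (1 / 64) ^ q * (m₁ n₀ J₀ p + m₂ n₀ J₀ q)) :
    a * (A.card : ℝ) ≤ 4 * K * P * Nf.card * Kf.card := by
  classical
  obtain ⟨N, hN⟩ : ∃ N : ℕ, ∀ i ∈ A, j₁ i < N ∧ j₂ i < N := by
    refine ⟨A.sup j₁ + A.sup j₂ + 1, fun i hi => ?_⟩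
    have h1 := Finset.le_sup (f := j₁) hi
    have h2 := Finset.le_sup (f := j₂) hi
    omega
  set Jf : Finset ℤ := A.image J with hJf
  set L : Finset (ℤ × (ℤ × ℤ × ℤ) × ℕ × ℕ × ℤ) :=
    Nf ×ˢ Kf ×ˢ Finset.range N ×ˢ Finset.range N ×ˢ Jf with hL
  have hmaps : ∀ i ∈ A, (n i, κ i, j₁ i, j₂ i, J i) ∈ L := by
    intro i hi
    rw [hL]
    simp only [Finset.mem_product, Finset.mem_range]
    exact ⟨hn i hi, hκ i hi, (hN i hi).1, (hN i hi).2, Finset.mem_image_of_mem _ hi⟩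
  have e1 : (A.card : ℝ) = ∑ l ∈ L, ((A.filter fun i => (n i, κ i, j₁ i, j₂ i, J i) = l).card : ℝ) := by
    rw [Finset.card_eq_sum_card_fiberwise hmaps]
    push_cast
    rfl
  rw [e1, Finset.mul_sum]
  calc ∑ l ∈ L, a * ((A.filter fun i => (n i, κ i, j₁ i, j₂ i, J i) = l).card : ℝ)
      ≤ ∑ l ∈ L, K * (1 / 64) ^ l.2.2.1 * (1 / 64) ^ l.2.2.2.1 *
          (m₁ l.1 l.2.2.2.2 l.2.2.1 + m₂ l.1 l.2.2.2.2 l.2.2.2.1) := by
        refine Finset.sum_le_sum fun l _ => ?_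
        obtain ⟨n₀, κ₀, p, q, J₀⟩ := l
        simpa only [Prod.mk.injEq] using hc n₀ J₀ κ₀ p q
    _ = ∑ n₀ ∈ Nf, ∑ κ₀ ∈ Kf, ∑ p ∈ Finset.range N, ∑ q ∈ Finset.range N, ∑ J₀ ∈ Jf,
          K * (1 / 64) ^ p * (1 / 64) ^ q * (m₁ n₀ J₀ p + m₂ n₀ J₀ q) := by
        rw [hL]
        simp only [Finset.sum_product]
    _ ≤ ∑ n₀ ∈ Nf, ∑ κ₀ ∈ Kf, ∑ p ∈ Finset.range N, ∑ q ∈ Finset.range N,
          K * P * ((1 / 64) ^ p * (1 / 64) ^ q) := by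
        refine Finset.sum_le_sum fun n₀ _ => Finset.sum_le_sum fun κ₀ _ => Finset.sum_le_sum fun p _ =>
          Finset.sum_le_sum fun q _ => ?_
        rw [← Finset.mul_sum]
        calc K * (1 / 64) ^ p * (1 / 64) ^ q * ∑ J₀ ∈ Jf, (m₁ n₀ J₀ p + m₂ n₀ J₀ q)
            ≤ K * (1 / 64) ^ p * (1 / 64) ^ q * P :=
              mul_le_mul_of_nonneg_left (hm n₀ p q Jf) (by positivity)
          _ = _ := by ring
    _ = Nf.card * (Kf.card * (K * P * ((∑ p ∈ Finset.range N, (1 / 64 : ℝ) ^ p) *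
          ∑ q ∈ Finset.range N, (1 / 64 : ℝ) ^ q))) := by
        rw [Finset.sum_mul_sum]
        simp only [Finset.sum_const, nsmul_eq_mul, Finset.mul_sum]
    _ ≤ Nf.card * (Kf.card * (K * P * (2 * 2))) := by
        have h1 := geo_le (q := 1 / 64) (by norm_num) (by norm_num) N
        have h2 : 0 ≤ ∑ q ∈ Finset.range N, (1 / 64 : ℝ) ^ q := Finset.sum_nonneg fun _ _ => by positivity
        gcongr
    _ = _ := by ring

/-- sum over the classes (bad points of one kind) -/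
theorem sumB {ι : Type*} (A : Finset ι) (n J : ι → ℤ) (sq : ι → ℤ × ℤ) (j : ι → ℕ) (Nf : Finset ℤ)
    (a D K P : ℝ) (m : ℤ → ℤ → ℕ → ℝ) (Q : ℤ → ℤ → ℕ → Finset (ℤ × ℤ)) (ha : 0 ≤ a)
    (hn : ∀ i ∈ A, n i ∈ Nf) (hK : 0 ≤ K) (hP : 0 ≤ P) (hD : 0 ≤ D)
    (hm : ∀ n₀ p, ∀ Jf : Finset ℤ, ∑ J₀ ∈ Jf, m n₀ J₀ p ≤ P * (1 / 4) ^ p)
    (hq : ∀ i ∈ A, sq i ∈ Q (n i) (J i) (j i))
    (hQ : ∀ n₀ J₀ p, a * ((Q n₀ J₀ p).card : ℝ) ≤ K * m n₀ J₀ p)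
    (hc : ∀ n₀ J₀ s₀, ((A.filter fun i => n i = n₀ ∧ J i = J₀ ∧ sq i = s₀).card : ℝ) ≤ D) :
    a * (A.card : ℝ) ≤ 2 * D * K * P * Nf.card := by
  classical
  obtain ⟨N, hN⟩ : ∃ N : ℕ, ∀ i ∈ A, j i < N := by
    refine ⟨A.sup j + 1, fun i hi => ?_⟩
    have h1 := Finset.le_sup (f := j) hi
    omega
  set Jf : Finset ℤ := A.image J with hJf
  set L : Finset (ℤ × ℕ × ℤ) := Nf ×ˢ Finset.range N ×ˢ Jf with hL
  have hmaps : ∀ i ∈ A, (n i, j i, J i) ∈ L := by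
    intro i hi
    rw [hL]
    simp only [Finset.mem_product, Finset.mem_range]
    exact ⟨hn i hi, hN i hi, Finset.mem_image_of_mem _ hi⟩
  have e1 : (A.card : ℝ) = ∑ l ∈ L, ((A.filter fun i => (n i, j i, J i) = l).card : ℝ) := by
    rw [Finset.card_eq_sum_card_fiberwise hmaps]
    push_cast
    rfl
  have e2 : ∀ l ∈ L, a * ((A.filter fun i => (n i, j i, J i) = l).card : ℝ) ≤ D * K * m l.1 l.2.2 l.2.1 := by
    intro l _
    obtain ⟨n₀, p, J₀⟩ := l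
    simp only [Prod.mk.injEq]
    have hmaps2 : ∀ i ∈ A.filter (fun i => n i = n₀ ∧ j i = p ∧ J i = J₀), sq i ∈ Q n₀ J₀ p := by
      intro i hi
      rw [Finset.mem_filter] at hi
      obtain ⟨hi, h1, h2, h3⟩ := hi
      have := hq i hi
      rwa [h1, h2, h3] at this
    have e3 : ((A.filter fun i => n i = n₀ ∧ j i = p ∧ J i = J₀).card : ℝ) ≤ (Q n₀ J₀ p).card * D := by
      rw [Finset.card_eq_sum_card_fiberwise hmaps2]
      push_cast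
      calc ∑ s₀ ∈ Q n₀ J₀ p, (((A.filter fun i => n i = n₀ ∧ j i = p ∧ J i = J₀).filter fun i => sq i = s₀).card : ℝ)
          ≤ ∑ s₀ ∈ Q n₀ J₀ p, D := by
            refine Finset.sum_le_sum fun s₀ _ => le_trans ?_ (hc n₀ J₀ s₀)
            exact_mod_cast Finset.card_le_card (by
              intro i hi
              simp only [Finset.mem_filter] at hi ⊢
              exact ⟨hi.1.1, hi.1.2.1, hi.1.2.2.2, hi.2⟩)
        _ = _ := by rw [Finset.sum_const, nsmul_eq_mul]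
    calc a * ((A.filter fun i => n i = n₀ ∧ j i = p ∧ J i = J₀).card : ℝ)
        ≤ a * ((Q n₀ J₀ p).card * D) := mul_le_mul_of_nonneg_left e3 ha
      _ = D * (a * (Q n₀ J₀ p).card) := by ring
      _ ≤ D * (K * m n₀ J₀ p) := mul_le_mul_of_nonneg_left (hQ n₀ J₀ p) hD
      _ = _ := by ring
  rw [e1, Finset.mul_sum]
  calc ∑ l ∈ L, a * ((A.filter fun i => (n i, j i, J i) = l).card : ℝ)
      ≤ ∑ l ∈ L, D * K * m l.1 l.2.2 l.2.1 := Finset.sum_le_sum e2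
    _ = ∑ n₀ ∈ Nf, ∑ p ∈ Finset.range N, ∑ J₀ ∈ Jf, D * K * m n₀ J₀ p := by
        rw [hL]
        simp only [Finset.sum_product]
    _ ≤ ∑ n₀ ∈ Nf, ∑ p ∈ Finset.range N, D * K * P * (1 / 4) ^ p := by
        refine Finset.sum_le_sum fun n₀ _ => Finset.sum_le_sum fun p _ => ?_
        rw [← Finset.mul_sum]
        calc D * K * ∑ J₀ ∈ Jf, m n₀ J₀ p ≤ D * K * (P * (1 / 4) ^ p) :=
              mul_le_mul_of_nonneg_left (hm n₀ p Jf) (by positivity)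
          _ = _ := by ring
    _ = Nf.card * (D * K * P * ∑ p ∈ Finset.range N, (1 / 4 : ℝ) ^ p) := by
        simp only [Finset.sum_const, nsmul_eq_mul, Finset.mul_sum]
    _ ≤ Nf.card * (D * K * P * 2) := by
        have h1 := geo_le (q := 1 / 4) (by norm_num) (by norm_num) N
        gcongr
    _ = _ := by ring

end Vale.Agent.P076.H523
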