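import Vale.Agent.P076.H523.Spec
import Vale.Agent.P076.H523.Cls
import Vale.Agent.P076.H523.Bmp

/-! # P076 / TS.SLAB : the crude bilinear bound for given energy caps (helper523) -/

set_option linter.all false

open MeasureTheory Complex Vale.Agent.P122.C2 Vale.Agent.P076.H23

namespace Vale.Agent.P076.H523

/-- normalised slice profile -/
noncomputable def gp (S : ℝ) (j : ℕ) (y τ : ℝ) (G : E 2 → ℂ) (ξ : ℝ) : ℂ :=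
  (((1 / 8 : ℝ) ^ j : ℝ) : ℂ) * sl S j y τ G ξ

theorem sol_gp (S : ℝ) (j : ℕ) (y τ : ℝ) (G : E 2 → ℂ) (x t : ℝ) :
    ‖X.sol (gp S j y τ G) x t‖ = (1 / 8) ^ j * ‖X.sol (sl S j y τ G) x t‖ := by
  have h : X.sol (gp S j y τ G) x t = (((1 / 8 : ℝ) ^ j : ℝ) : ℂ) * X.sol (sl S j y τ G) x t := by
    unfold X.sol gp
    rw [← integral_const_mul]
    congr 1; ext ξ; ring
  rw [h, norm_mul, norm_real, Real.norm_eq_abs, abs_of_nonneg (by positivity)]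

theorem ms_gp (S : ℝ) (j : ℕ) (y τ : ℝ) (G : E 2 → ℂ) :
    X.ms (gp S j y τ G) = (1 / 64) ^ j * X.ms (sl S j y τ G) := by
  unfold X.ms gp
  rw [← integral_const_mul]
  congr 1; ext ξ
  rw [norm_mul, norm_real, Real.norm_eq_abs, abs_of_nonneg (by positivity), mul_pow, ← pow_mul, mul_comm j 2, pow_mul]
  norm_num

theorem ms_nonneg (g : ℝ → ℂ) : 0 ≤ X.ms g := integral_nonneg fun ξ => by positivity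

theorem en_gp (S : ℝ) (j : ℕ) (y τ : ℝ) (G : E 2 → ℂ) (T x t : ℝ) :
    ∫ x', X.W T (x - x') * ‖X.sol (gp S j y τ G) x' t‖ ^ 2 =
      (1 / 64) ^ j * ∫ x', X.W T (x - x') * ‖X.sol (sl S j y τ G) x' t‖ ^ 2 := by
  rw [← integral_const_mul]
  congr 1; ext x'
  rw [sol_gp, mul_pow, ← pow_mul, mul_comm j 2, pow_mul]
  norm_num
  ring

/-- the body of `StTAY` -/
def TAYb (c : ℝ) : Prop := ∀ (S w y τ α : ℝ) (G : E 2 → ℂ) (x : E 2) (t : ℝ), 0 < S → S * w ≤ 1 / 128 →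
  Str w G → |x 1 - y| ≤ S → |t - τ| ≤ S ^ 2 → 0 < α → α ≤ ‖evo G x t 0‖ →
    ∃ j : ℕ, c * 8 ^ j * α ≤ ‖X.sol (sl S j y τ G) (x 0) (t - τ)‖

/-- the body of `StEN` -/
def ENb (C : ℝ) : Prop := ∀ (S T w y τ : ℝ) (G : E 2 → ℂ) (x : E 2) (t : ℝ) (j : ℕ), 0 < S → S ≤ T →
  1 / 256 ≤ S * w → S * w ≤ 1 / 128 → Str w G → |x 1 - y| ≤ S → |t - τ| ≤ S ^ 2 →
    ∫ x', X.W T (x 0 - x') * ‖X.sol (sl S j y τ G) x' (t - τ)‖ ^ 2 ≤ C * eG T w G x t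

/-- the body of `StPAR` -/
def PARb (C : ℝ) : Prop := ∀ (S w τ : ℝ) (G : E 2 → ℂ) (j : ℕ), 0 < S → 0 < w → S * w ≤ 1 / 128 → Str w G →
  (∀ y : ℝ, Measurable (sl S j y τ G) ∧ (∃ M, ∀ ξ, ‖sl S j y τ G ξ‖ ≤ M) ∧
    ∀ ξ, sl S j y τ G ξ ≠ 0 → ∃ ζ, G (WithLp.toLp 2 ![ξ, ζ]) ≠ 0) ∧
  ∀ J : Finset ℤ, ∑ k ∈ J, X.ms (sl S j (k * S) τ G) ≤ C * (1 / 4) ^ j / S * ∫ η, ‖G η‖ ^ 2

/-- the body of `StCR` -/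
def CRb (N₀ : ℕ) (ψ₁ ψ₂ : ℝ → ℝ) (C : ℝ) : Prop := ∀ (m : ℕ) (T α : ℝ), (2:ℝ) ^ m ≤ T → 0 < α →
  ∃ B₁ B₂ : (ℝ → ℂ) → ℝ → Finset (ℤ × ℤ),
  (∀ (g : ℝ → ℂ) (Y : ℝ), Measurable g → (∃ M, ∀ ξ, ‖g ξ‖ ≤ M) → (∀ ξ, g ξ ≠ 0 → |ξ| ≤ 1) → 0 < Y →
    C * (T / 2 ^ m) ^ N₀ * Y ≤ α ^ 2 →
      α ^ 2 * (B₁ g Y).card ≤ C * (T / 2 ^ m) ^ N₀ * X.ms g ∧ α ^ 2 * (B₂ g Y).card ≤ C * (T / 2 ^ m) ^ N₀ * X.ms g) ∧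
  ∀ g₁ g₂ : ℝ → ℂ, Measurable g₁ → Measurable g₂ →
  (∃ M, ∀ ξ, ‖g₁ ξ‖ ≤ M) → (∃ M, ∀ ξ, ‖g₂ ξ‖ ≤ M) →
  (∀ ξ, g₁ ξ ≠ 0 → |ξ| ≤ 1) → (∀ ξ, g₂ ξ ≠ 0 → |ξ| ≤ 1) →
  ∀ Y₁ Y₂ : ℝ, 0 < Y₁ → 0 < Y₂ → C * (T / 2 ^ m) ^ N₀ * Y₁ ≤ α ^ 2 → C * (T / 2 ^ m) ^ N₀ * Y₂ ≤ α ^ 2 →
  ∀ E : Finset (ℝ × ℝ),
  (∀ z ∈ E, ∀ z' ∈ E, z ≠ z' → 1 ≤ |z.1 - z'.1| ∨ 1 ≤ |z.2 - z'.2|) →
  (∀ z ∈ E, 0 ≤ z.2 ∧ z.2 < (4:ℝ) ^ m ∧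
    α ≤ ‖X.sol (fun ξ => ψ₁ ξ * g₁ ξ) z.1 z.2‖ ∧ α ≤ ‖X.sol (fun ξ => ψ₂ ξ * g₂ ξ) z.1 z.2‖ ∧
    ∫ x, X.W T (z.1 - x) * ‖X.sol g₁ x z.2‖ ^ 2 ≤ Y₁ ∧
    ∫ x, X.W T (z.1 - x) * ‖X.sol g₂ x z.2‖ ^ 2 ≤ Y₂ ∧
    (⌊z.1 / 2 ^ m⌋, ⌊z.2 / 2 ^ m⌋) ∉ B₁ g₁ Y₁ ∧ (⌊z.1 / 2 ^ m⌋, ⌊z.2 / 2 ^ m⌋) ∉ B₂ g₂ Y₂) →
  α ^ 2 * E.card ≤ C * (Y₁ * Y₂ / α ^ 4) * (4:ℝ) ^ m * (X.ms g₁ + X.ms g₂)

/-- properties of the normalised profiles -/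
theorem gp_props {CP : ℝ} (hP : PARb CP) {S w : ℝ} (hS : 0 < S) (hw : 0 < w) (hSw : S * w ≤ 1 / 128) {G : E 2 → ℂ}
    (hG : Str w G) (j : ℕ) (y τ : ℝ) : Measurable (gp S j y τ G) ∧ (∃ M, ∀ ξ, ‖gp S j y τ G ξ‖ ≤ M) ∧
      (∀ ξ, gp S j y τ G ξ ≠ 0 → |ξ| ≤ 1) ∧ ∀ ξ, gp S j y τ G ξ ≠ 0 → ∃ ζ, G (WithLp.toLp 2 ![ξ, ζ]) ≠ 0 := by
  obtain ⟨h1, ⟨M, hM⟩, h3⟩ := (hP S w τ G j hS hw hSw hG).1 y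
  have h4 : ∀ ξ, gp S j y τ G ξ ≠ 0 → ∃ ζ, G (WithLp.toLp 2 ![ξ, ζ]) ≠ 0 := fun ξ h =>
    h3 ξ fun h0 => h (by unfold gp; rw [h0, mul_zero])
  refine ⟨?_, ⟨M, fun ξ => ?_⟩, ?_, h4⟩
  · unfold gp
    exact measurable_const.mul h1
  · unfold gp
    rw [norm_mul, norm_real, Real.norm_eq_abs, abs_of_nonneg (by positivity)]
    calc (1 / 8 : ℝ) ^ j * ‖sl S j y τ G ξ‖ ≤ 1 * ‖sl S j y τ G ξ‖ :=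
          mul_le_mul_of_nonneg_right (pow_le_one₀ (by norm_num) (by norm_num)) (norm_nonneg _)
      _ ≤ M := by rw [one_mul]; exact hM ξ
  · intro ξ h
    obtain ⟨ζ, hζ⟩ := h4 ξ h
    simpa using hG.s0 _ hζ

/-- sum of the masses over the lines -/
theorem ms_sum {CP : ℝ} (hP : PARb CP) {S w : ℝ} (hS : 0 < S) (hw : 0 < w) (hSw : S * w ≤ 1 / 128) {G : E 2 → ℂ}
    (hG : Str w G) (j : ℕ) (τ : ℝ) (Jf : Finset ℤ) :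
    ∑ k ∈ Jf, X.ms (gp S j (k * S) τ G) ≤ CP / S * (∫ η, ‖G η‖ ^ 2) * (1 / 4) ^ j := by
  have h := (hP S w τ G j hS hw hSw hG).2 Jf
  calc ∑ k ∈ Jf, X.ms (gp S j (k * S) τ G) ≤ ∑ k ∈ Jf, X.ms (sl S j (k * S) τ G) := by
        refine Finset.sum_le_sum fun k _ => ?_
        rw [ms_gp]
        exact mul_le_of_le_one_left (ms_nonneg _) (pow_le_one₀ (by norm_num) (by norm_num))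
    _ ≤ _ := h
    _ = _ := by ring

end Vale.Agent.P076.H523
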