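import Vale.Agent.P076.H523.Crd

/-! # P076 / TS.SLAB : the crude bilinear bound for given energy caps, one pair of bumps (helper523) -/

set_option linter.all false

open MeasureTheory Complex Vale.Agent.P122.C2 Vale.Agent.P076.H23

namespace Vale.Agent.P076.H523

theorem fl_pos {S x : ℝ} (hS : 0 < S) : 0 ≤ x - ⌊x / S⌋ * S ∧ x - ⌊x / S⌋ * S < S := by
  have h1 := Int.floor_le (x / S)
  have h2 := Int.lt_floor_add_one (x / S)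
  rw [le_div_iff₀ hS] at h1
  rw [div_lt_iff₀ hS] at h2
  constructor <;> linarith

theorem win_card {m : ℕ} {R : ℝ} (h : (4:ℝ) ^ m ≤ R) :
    (((Finset.Icc (0 : ℤ) ⌊R / ((2:ℝ) ^ m) ^ 2⌋).card : ℕ) : ℝ) ≤ 2 * R / ((2:ℝ) ^ m) ^ 2 := by
  have e : ((2:ℝ) ^ m) ^ 2 = 4 ^ m := by rw [← pow_mul, mul_comm, pow_mul]; norm_num
  rw [e]
  have h4 : (0:ℝ) < 4 ^ m := by positivity
  have h1 : 1 ≤ R / 4 ^ m := by rw [le_div_iff₀ h4]; linarith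
  have h0 : 0 ≤ ⌊R / (4:ℝ) ^ m⌋ := Int.floor_nonneg.2 (by linarith)
  have h3 := Int.floor_le (R / (4:ℝ) ^ m)
  generalize ⌊R / (4:ℝ) ^ m⌋ = k at h0 h3 ⊢
  rw [Int.card_Icc, sub_zero]
  have h2 : (((k + 1).toNat : ℕ) : ℝ) = ((k + 1 : ℤ) : ℝ) := by
    exact_mod_cast Int.toNat_of_nonneg (by omega : 0 ≤ k + 1)
  rw [h2]
  push_cast
  have h5 : 2 * R / 4 ^ m = R / 4 ^ m + R / 4 ^ m := by ring
  rw [h5]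
  linarith

/-- good points -/
theorem good_part {cT CE CP CB : ℝ} {N₀ : ℕ} {ψ₁ ψ₂ : ℝ → ℝ} (hcT : 0 < cT) (hCE : 0 < CE) (hCP : 0 < CP)
    (hCB : 1 ≤ CB) (hE : ENb CE) (hP : PARb CP)
    {m : ℕ} {T w R g α Y₁ Y₂ : ℝ} {G₁ G₂ : E 2 → ℂ} {A : Finset Ix} {x : Ix → E 2} {t : Ix → ℝ}
    (hw1 : 1 / 256 ≤ 2 ^ m * w) (hw2 : 2 ^ m * w ≤ 1 / 128) (hST : (2:ℝ) ^ m ≤ T) (hSR : (4:ℝ) ^ m ≤ R) (hα : 0 < α)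
    (hG₁ : Str w G₁) (hG₂ : Str w G₂)
    (hψ₁ : ∀ η, G₁ η ≠ 0 → ψ₁ (η 0) = 1) (hψ₂ : ∀ η, G₂ η ≠ 0 → ψ₂ (η 0) = 1)
    (hPt : Pt g R A x t) (j₁ j₂ : Ix → ℕ)
    (hj₁ : ∀ i ∈ A, cT * 8 ^ (j₁ i) * α ≤
      ‖X.sol (sl (2 ^ m) (j₁ i) (⌊x i 1 / 2 ^ m⌋ * 2 ^ m) (⌊t i / (2 ^ m) ^ 2⌋ * (2 ^ m) ^ 2) G₁) (x i 0)
        (t i - ⌊t i / (2 ^ m) ^ 2⌋ * (2 ^ m) ^ 2)‖)
    (hj₂ : ∀ i ∈ A, cT * 8 ^ (j₂ i) * α ≤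
      ‖X.sol (sl (2 ^ m) (j₂ i) (⌊x i 1 / 2 ^ m⌋ * 2 ^ m) (⌊t i / (2 ^ m) ^ 2⌋ * (2 ^ m) ^ 2) G₂) (x i 0)
        (t i - ⌊t i / (2 ^ m) ^ 2⌋ * (2 ^ m) ^ 2)‖)
    (hY₁ : 0 < Y₁) (hY₂ : 0 < Y₂) (hc₁ : CB * (T / 2 ^ m) ^ N₀ * (CE * Y₁) ≤ (cT * α) ^ 2)
    (hc₂ : CB * (T / 2 ^ m) ^ N₀ * (CE * Y₂) ≤ (cT * α) ^ 2)
    (he : ∀ i ∈ A, eG T w G₁ (x i) (t i) ≤ Y₁ ∧ eG T w G₂ (x i) (t i) ≤ Y₂)
    {B₁ B₂ : (ℝ → ℂ) → ℝ → Finset (ℤ × ℤ)}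
    (hB : ∀ g₁ g₂ : ℝ → ℂ, Measurable g₁ → Measurable g₂ →
      (∃ M, ∀ ξ, ‖g₁ ξ‖ ≤ M) → (∃ M, ∀ ξ, ‖g₂ ξ‖ ≤ M) →
      (∀ ξ, g₁ ξ ≠ 0 → |ξ| ≤ 1) → (∀ ξ, g₂ ξ ≠ 0 → |ξ| ≤ 1) →
      ∀ Y₁ Y₂ : ℝ, 0 < Y₁ → 0 < Y₂ → CB * (T / 2 ^ m) ^ N₀ * Y₁ ≤ (cT * α) ^ 2 →
      CB * (T / 2 ^ m) ^ N₀ * Y₂ ≤ (cT * α) ^ 2 →
      ∀ E : Finset (ℝ × ℝ),
      (∀ z ∈ E, ∀ z' ∈ E, z ≠ z' → 1 ≤ |z.1 - z'.1| ∨ 1 ≤ |z.2 - z'.2|) →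
      (∀ z ∈ E, 0 ≤ z.2 ∧ z.2 < (4:ℝ) ^ m ∧
        cT * α ≤ ‖X.sol (fun ξ => ψ₁ ξ * g₁ ξ) z.1 z.2‖ ∧ cT * α ≤ ‖X.sol (fun ξ => ψ₂ ξ * g₂ ξ) z.1 z.2‖ ∧
        ∫ x, X.W T (z.1 - x) * ‖X.sol g₁ x z.2‖ ^ 2 ≤ Y₁ ∧
        ∫ x, X.W T (z.1 - x) * ‖X.sol g₂ x z.2‖ ^ 2 ≤ Y₂ ∧
        (⌊z.1 / 2 ^ m⌋, ⌊z.2 / 2 ^ m⌋) ∉ B₁ g₁ Y₁ ∧ (⌊z.1 / 2 ^ m⌋, ⌊z.2 / 2 ^ m⌋) ∉ B₂ g₂ Y₂) →
      (cT * α) ^ 2 * E.card ≤ CB * (Y₁ * Y₂ / (cT * α) ^ 4) * (4:ℝ) ^ m * (X.ms g₁ + X.ms g₂))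
    (hgood : ∀ i ∈ A, (⌊x i 0 / 2 ^ m⌋, ⌊(t i - ⌊t i / (2 ^ m) ^ 2⌋ * (2 ^ m) ^ 2) / 2 ^ m⌋) ∉
        B₁ (gp (2 ^ m) (j₁ i) (⌊x i 1 / 2 ^ m⌋ * 2 ^ m) (⌊t i / (2 ^ m) ^ 2⌋ * (2 ^ m) ^ 2) G₁)
          ((1 / 64) ^ (j₁ i) * (CE * Y₁)) ∧
      (⌊x i 0 / 2 ^ m⌋, ⌊(t i - ⌊t i / (2 ^ m) ^ 2⌋ * (2 ^ m) ^ 2) / 2 ^ m⌋) ∉
        B₂ (gp (2 ^ m) (j₂ i) (⌊x i 1 / 2 ^ m⌋ * 2 ^ m) (⌊t i / (2 ^ m) ^ 2⌋ * (2 ^ m) ^ 2) G₂)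
          ((1 / 64) ^ (j₂ i) * (CE * Y₂))) :
    (cT * α) ^ 2 * (A.card : ℝ) ≤ 32 * CB * CP * ((CE * Y₁) * (CE * Y₂) / (cT * α) ^ 4) * R *
      ((∫ η, ‖G₁ η‖ ^ 2) + ∫ η, ‖G₂ η‖ ^ 2) := by
  have hS : (0:ℝ) < 2 ^ m := by positivity
  have hw : 0 < w := by
    by_contra h
    push Not at h
    have := mul_nonpos_of_nonneg_of_nonpos hS.le h
    linarith
  have hI₁ : 0 ≤ ∫ η, ‖G₁ η‖ ^ 2 := integral_nonneg fun η => by positivity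
  have hI₂ : 0 ≤ ∫ η, ‖G₂ η‖ ^ 2 := integral_nonneg fun η => by positivity
  have e4 : ((2:ℝ) ^ m) ^ 2 = 4 ^ m := by rw [← pow_mul, mul_comm, pow_mul]; norm_num
  have hR : 0 < R := lt_of_lt_of_le (by positivity) hSR
  have key := sumG A (fun i => ⌊t i / ((2:ℝ) ^ m) ^ 2⌋) (fun i => ⌊x i 1 / (2:ℝ) ^ m⌋)
    (fun i => (⌊x i 1⌋ - ⌊x i 1 / (2:ℝ) ^ m⌋ * 2 ^ m, ⌊x i 0⌋ % 2, ⌊t i⌋ % 2)) j₁ j₂
    (Finset.Icc 0 ⌊R / ((2:ℝ) ^ m) ^ 2⌋) (Finset.Ico 0 (2 ^ m) ×ˢ Finset.Ico 0 2 ×ˢ Finset.Ico 0 2)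
    ((cT * α) ^ 2) (CB * ((CE * Y₁) * (CE * Y₂) / (cT * α) ^ 4) * 4 ^ m)
    (CP / 2 ^ m * ((∫ η, ‖G₁ η‖ ^ 2) + ∫ η, ‖G₂ η‖ ^ 2))
    (fun n J j => X.ms (gp (2 ^ m) j (J * 2 ^ m) (n * (2 ^ m) ^ 2) G₁))
    (fun n J j => X.ms (gp (2 ^ m) j (J * 2 ^ m) (n * (2 ^ m) ^ 2) G₂))
    ?_ ?_ (by positivity) (by positivity) ?_ ?_
  · refine key.trans ?_
    have hcard : ((Finset.Ico (0:ℤ) (2 ^ m) ×ˢ Finset.Ico (0:ℤ) 2 ×ˢ Finset.Ico (0:ℤ) 2).card : ℝ) = 2 ^ m * 4 := by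
      have h2 : (((2:ℤ) ^ m).toNat : ℝ) = 2 ^ m := by
        have : (((2:ℤ) ^ m).toNat : ℤ) = 2 ^ m := Int.toNat_of_nonneg (by positivity)
        exact_mod_cast this
      simp only [Finset.card_product, Int.card_Ico, sub_zero]
      push_cast
      rw [h2]
    rw [hcard]
    have hwin := win_card hSR
    calc 4 * (CB * ((CE * Y₁) * (CE * Y₂) / (cT * α) ^ 4) * 4 ^ m) *
            (CP / 2 ^ m * ((∫ η, ‖G₁ η‖ ^ 2) + ∫ η, ‖G₂ η‖ ^ 2)) *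
            ((Finset.Icc (0 : ℤ) ⌊R / ((2:ℝ) ^ m) ^ 2⌋).card : ℝ) * (2 ^ m * 4)
        ≤ 4 * (CB * ((CE * Y₁) * (CE * Y₂) / (cT * α) ^ 4) * 4 ^ m) *
            (CP / 2 ^ m * ((∫ η, ‖G₁ η‖ ^ 2) + ∫ η, ‖G₂ η‖ ^ 2)) *
            (2 * R / ((2:ℝ) ^ m) ^ 2) * (2 ^ m * 4) := by
          gcongr
      _ = _ := by
          rw [e4]
          field_simp
          ring
  · intro i hi
    simp only [Finset.mem_Icc]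
    refine ⟨Int.floor_nonneg.2 (div_nonneg (hPt.t0 i hi) (by positivity)), Int.floor_le_floor ?_⟩
    exact div_le_div_of_nonneg_right (hPt.tR i hi) (by positivity)
  · intro i hi
    simp only [Finset.mem_product, Finset.mem_Ico]
    have h1 := fl_pos (x := x i 1) hS
    have h2 : ⌊x i 1 / (2:ℝ) ^ m⌋ * 2 ^ m ≤ ⌊x i 1⌋ := by
      rw [Int.le_floor]; push_cast; linarith [h1.1]
    have h3 : ⌊x i 1⌋ < ⌊x i 1 / (2:ℝ) ^ m⌋ * 2 ^ m + 2 ^ m := by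
      have h4 := Int.floor_le (x i 1)
      have h5 : ((⌊x i 1⌋ : ℤ) : ℝ) < ((⌊x i 1 / (2:ℝ) ^ m⌋ * 2 ^ m + 2 ^ m : ℤ) : ℝ) := by
        push_cast; linarith [h1.2]
      exact_mod_cast h5
    refine ⟨⟨by linarith, by linarith⟩, ⟨?_, ?_⟩, ?_, ?_⟩ <;> omega
  · intro n₀ p q Jf
    rw [Finset.sum_add_distrib]
    have a1 := ms_sum hP hS hw hw2 hG₁ p (n₀ * (2 ^ m) ^ 2) Jf
    have a2 := ms_sum hP hS hw hw2 hG₂ q (n₀ * (2 ^ m) ^ 2) Jf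
    have b1 : CP / 2 ^ m * (∫ η, ‖G₁ η‖ ^ 2) * (1 / 4) ^ p ≤ CP / 2 ^ m * (∫ η, ‖G₁ η‖ ^ 2) :=
      mul_le_of_le_one_right (by positivity) (pow_le_one₀ (by norm_num) (by norm_num))
    have b2 : CP / 2 ^ m * (∫ η, ‖G₂ η‖ ^ 2) * (1 / 4) ^ q ≤ CP / 2 ^ m * (∫ η, ‖G₂ η‖ ^ 2) :=
      mul_le_of_le_one_right (by positivity) (pow_le_one₀ (by norm_num) (by norm_num))
    linarith
  · intro n₀ J₀ κ₀ p q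
    set A' := A.filter fun i => ⌊t i / ((2:ℝ) ^ m) ^ 2⌋ = n₀ ∧
      (⌊x i 1⌋ - ⌊x i 1 / (2:ℝ) ^ m⌋ * 2 ^ m, ⌊x i 0⌋ % 2, ⌊t i⌋ % 2) = κ₀ ∧ j₁ i = p ∧ j₂ i = q ∧
      ⌊x i 1 / (2:ℝ) ^ m⌋ = J₀ with hA'
    obtain ⟨E, hE1, hE2, hE3⟩ := img A' (fun i => x i 0) (fun i => t i - n₀ * (2 ^ m) ^ 2) (by
      intro i hi j hj hij
      rw [hA', Finset.mem_filter] at hi hj
      obtain ⟨hi, i1, i2, i3, i4, i5⟩ := hi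
      obtain ⟨hj, k1, k2, k3, k4, k5⟩ := hj
      rw [← k2, i5, k5] at i2
      simp only [Prod.mk.injEq] at i2
      obtain ⟨c1, c2, c3⟩ := i2
      by_cases hx : ⌊x i 0⌋ = ⌊x j 0⌋
      · right
        have ht : ⌊t i⌋ ≠ ⌊t j⌋ := by
          intro ht
          refine hij (hPt.cell i hi j hj ?_ ht)
          intro k
          fin_cases k
          · exact hx
          · have : ⌊x i 1⌋ = ⌊x j 1⌋ := by omega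
            exact this
        have := par_sep c3 ht
        have e : t i - n₀ * (2 ^ m) ^ 2 - (t j - n₀ * (2 ^ m) ^ 2) = t i - t j := by ring
        rw [e]
        exact this
      · left
        exact par_sep c2 hx)
    have p1 := gp_props hP hS hw hw2 hG₁ p (J₀ * 2 ^ m) (n₀ * (2 ^ m) ^ 2)
    have p2 := gp_props hP hS hw hw2 hG₂ q (J₀ * 2 ^ m) (n₀ * (2 ^ m) ^ 2)
    have q1 : (1 / 64 : ℝ) ^ p ≤ 1 := pow_le_one₀ (by norm_num) (by norm_num)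
    have q2 : (1 / 64 : ℝ) ^ q ≤ 1 := pow_le_one₀ (by norm_num) (by norm_num)
    have hT0 : 0 < T := lt_of_lt_of_le hS hST
    have hm1 : ∀ ξ, (ψ₁ ξ : ℂ) * gp (2 ^ m) p (J₀ * 2 ^ m) (n₀ * (2 ^ m) ^ 2) G₁ ξ =
        gp (2 ^ m) p (J₀ * 2 ^ m) (n₀ * (2 ^ m) ^ 2) G₁ ξ := by
      intro ξ
      by_cases h : gp (2 ^ m) p (J₀ * 2 ^ m) (n₀ * (2 ^ m) ^ 2) G₁ ξ = 0
      · rw [h, mul_zero]
      · obtain ⟨ζ, hζ⟩ := p1.2.2.2 ξ h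
        have := hψ₁ _ hζ
        have h1 : ψ₁ ξ = 1 := by simpa using this
        rw [h1]; simp
    have hm2 : ∀ ξ, (ψ₂ ξ : ℂ) * gp (2 ^ m) q (J₀ * 2 ^ m) (n₀ * (2 ^ m) ^ 2) G₂ ξ =
        gp (2 ^ m) q (J₀ * 2 ^ m) (n₀ * (2 ^ m) ^ 2) G₂ ξ := by
      intro ξ
      by_cases h : gp (2 ^ m) q (J₀ * 2 ^ m) (n₀ * (2 ^ m) ^ 2) G₂ ξ = 0
      · rw [h, mul_zero]
      · obtain ⟨ζ, hζ⟩ := p2.2.2.2 ξ h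
        have := hψ₂ _ hζ
        have h1 : ψ₂ ξ = 1 := by simpa using this
        rw [h1]; simp
    have hb := hB (gp (2 ^ m) p (J₀ * 2 ^ m) (n₀ * (2 ^ m) ^ 2) G₁) (gp (2 ^ m) q (J₀ * 2 ^ m) (n₀ * (2 ^ m) ^ 2) G₂)
      p1.1 p2.1 p1.2.1 p2.2.1 p1.2.2.1 p2.2.2.1 ((1 / 64) ^ p * (CE * Y₁)) ((1 / 64) ^ q * (CE * Y₂))
      (by positivity) (by positivity) ?_ ?_ E hE3 ?_
    · rw [hE1] at hb
      refine hb.trans (le_of_eq ?_)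
      ring
    · refine le_trans ?_ hc₁
      refine mul_le_mul_of_nonneg_left (mul_le_of_le_one_left (by positivity) q1) (by positivity)
    · refine le_trans ?_ hc₂
      refine mul_le_mul_of_nonneg_left (mul_le_of_le_one_left (by positivity) q2) (by positivity)
    · intro z hz
      obtain ⟨i, hi, rfl⟩ := hE2 z hz
      rw [hA', Finset.mem_filter] at hi
      obtain ⟨hi, i1, i2, i3, i4, i5⟩ := hi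
      have ht := fl_pos (x := t i) (S := ((2:ℝ) ^ m) ^ 2) (by positivity)
      have hx := fl_pos (x := x i 1) hS
      rw [i1] at ht
      rw [i5] at hx
      have hgi := hgood i hi
      rw [i1, i3, i4, i5] at hgi
      have ht' : |t i - n₀ * (2 ^ m) ^ 2| ≤ ((2:ℝ) ^ m) ^ 2 := by
        rw [abs_of_nonneg ht.1]; exact ht.2.le
      have hx' : |x i 1 - J₀ * 2 ^ m| ≤ (2:ℝ) ^ m := by
        rw [abs_of_nonneg hx.1]; exact hx.2.le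
      have h8 : ∀ r : ℕ, (1 / 8 : ℝ) ^ r * (cT * 8 ^ r * α) = cT * α := by
        intro r
        have : (1 / 8 : ℝ) ^ r * 8 ^ r = 1 := by rw [← mul_pow]; norm_num
        calc (1 / 8 : ℝ) ^ r * (cT * 8 ^ r * α) = ((1 / 8 : ℝ) ^ r * 8 ^ r) * (cT * α) := by ring
          _ = _ := by rw [this, one_mul]
      refine ⟨ht.1, ?_, ?_, ?_, ?_, ?_, hgi.1, hgi.2⟩
      · rw [← e4]; exact ht.2
      · simp only [hm1]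
        rw [sol_gp, ← h8 p]
        refine mul_le_mul_of_nonneg_left ?_ (by positivity)
        have := hj₁ i hi
        rw [i1, i3, i5] at this
        exact this
      · simp only [hm2]
        rw [sol_gp, ← h8 q]
        refine mul_le_mul_of_nonneg_left ?_ (by positivity)
        have := hj₂ i hi
        rw [i1, i4, i5] at this
        exact this
      · simp only []
        rw [en_gp]
        refine mul_le_mul_of_nonneg_left ?_ (by positivity)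
        refine (hE (2 ^ m) T w (J₀ * 2 ^ m) (n₀ * (2 ^ m) ^ 2) G₁ (x i) (t i) p hS hST hw1 hw2 hG₁ hx' ht').trans ?_
        exact mul_le_mul_of_nonneg_left (he i hi).1 hCE.le
      · simp only []
        rw [en_gp]
        refine mul_le_mul_of_nonneg_left ?_ (by positivity)
        refine (hE (2 ^ m) T w (J₀ * 2 ^ m) (n₀ * (2 ^ m) ^ 2) G₂ (x i) (t i) q hS hST hw1 hw2 hG₂ hx' ht').trans ?_
        exact mul_le_mul_of_nonneg_left (he i hi).2 hCE.le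

end Vale.Agent.P076.H523
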