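import Vale.Agent.P076.H523.Crd2

/-! # P076 / TS.SLAB : the crude bilinear bound for given energy caps (helper523) -/

set_option linter.all false

open MeasureTheory Complex Vale.Agent.P122.C2 Vale.Agent.P076.H23

namespace Vale.Agent.P076.H523

/-- bad points -/
theorem bad_part {CP CB : ℝ} {N₀ : ℕ} (hCP : 0 < CP) (hCB : 1 ≤ CB) (hP : PARb CP)
    {m : ℕ} {T w R g α Y : ℝ} {G : E 2 → ℂ} {A : Finset Ix} {x : Ix → E 2} {t : Ix → ℝ}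
    (hw : 0 < w) (hw2 : 2 ^ m * w ≤ 1 / 128) (hST : (2:ℝ) ^ m ≤ T) (hSR : (4:ℝ) ^ m ≤ R) (hg : 0 ≤ g)
    (hG : Str w G) (hPt : Pt g R A x t) (j : Ix → ℕ) (hY : 0 < Y) (hc : CB * (T / 2 ^ m) ^ N₀ * Y ≤ α ^ 2)
    {Bq : (ℝ → ℂ) → ℝ → Finset (ℤ × ℤ)}
    (hQ : ∀ (g : ℝ → ℂ) (Y : ℝ), Measurable g → (∃ M, ∀ ξ, ‖g ξ‖ ≤ M) → (∀ ξ, g ξ ≠ 0 → |ξ| ≤ 1) → 0 < Y →
      CB * (T / 2 ^ m) ^ N₀ * Y ≤ α ^ 2 → α ^ 2 * ((Bq g Y).card : ℝ) ≤ CB * (T / 2 ^ m) ^ N₀ * X.ms g)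
    (hbad : ∀ i ∈ A, (⌊x i 0 / 2 ^ m⌋, ⌊(t i - ⌊t i / (2 ^ m) ^ 2⌋ * (2 ^ m) ^ 2) / 2 ^ m⌋) ∈
        Bq (gp (2 ^ m) (j i) (⌊x i 1 / 2 ^ m⌋ * 2 ^ m) (⌊t i / (2 ^ m) ^ 2⌋ * (2 ^ m) ^ 2) G)
          ((1 / 64) ^ (j i) * Y)) :
    α ^ 2 * (A.card : ℝ) ≤ 4 * CB * CP * (g * (T / 2 ^ m) ^ N₀ * (R / 2 ^ m)) * ∫ η, ‖G η‖ ^ 2 := by
  have hS : (0:ℝ) < 2 ^ m := by positivity
  have hS1 : (1:ℝ) ≤ 2 ^ m := one_le_pow₀ (by norm_num)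
  have hI : 0 ≤ ∫ η, ‖G η‖ ^ 2 := integral_nonneg fun η => by positivity
  have hT0 : 0 < T := lt_of_lt_of_le hS hST
  have hR : 0 < R := lt_of_lt_of_le (by positivity) hSR
  have key := sumB A (fun i => ⌊t i / ((2:ℝ) ^ m) ^ 2⌋) (fun i => ⌊x i 1 / (2:ℝ) ^ m⌋)
    (fun i => (⌊x i 0 / (2:ℝ) ^ m⌋, ⌊(t i - ⌊t i / ((2:ℝ) ^ m) ^ 2⌋ * ((2:ℝ) ^ m) ^ 2) / 2 ^ m⌋)) j
    (Finset.Icc 0 ⌊R / ((2:ℝ) ^ m) ^ 2⌋) (α ^ 2) (g * ((2:ℝ) ^ m) ^ 2) (CB * (T / 2 ^ m) ^ N₀)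
    (CP / 2 ^ m * ∫ η, ‖G η‖ ^ 2)
    (fun n J j => X.ms (gp (2 ^ m) j (J * 2 ^ m) (n * (2 ^ m) ^ 2) G))
    (fun n J j => Bq (gp (2 ^ m) j (J * 2 ^ m) (n * (2 ^ m) ^ 2) G) ((1 / 64) ^ j * Y))
    (by positivity) ?_ (by positivity) (by positivity) (by positivity) ?_ hbad ?_ ?_
  · refine key.trans ?_
    have hwin := win_card hSR
    calc 2 * (g * ((2:ℝ) ^ m) ^ 2) * (CB * (T / 2 ^ m) ^ N₀) * (CP / 2 ^ m * ∫ η, ‖G η‖ ^ 2) *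
          ((Finset.Icc (0 : ℤ) ⌊R / ((2:ℝ) ^ m) ^ 2⌋).card : ℝ)
        ≤ 2 * (g * ((2:ℝ) ^ m) ^ 2) * (CB * (T / 2 ^ m) ^ N₀) * (CP / 2 ^ m * ∫ η, ‖G η‖ ^ 2) *
          (2 * R / ((2:ℝ) ^ m) ^ 2) := by gcongr
      _ = _ := by
          field_simp
          ring
  · intro i hi
    simp only [Finset.mem_Icc]
    refine ⟨Int.floor_nonneg.2 (div_nonneg (hPt.t0 i hi) (by positivity)), Int.floor_le_floor ?_⟩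
    exact div_le_div_of_nonneg_right (hPt.tR i hi) (by positivity)
  · intro n₀ p Jf
    exact ms_sum hP hS hw hw2 hG p (n₀ * (2 ^ m) ^ 2) Jf
  · intro n₀ J₀ p
    have p1 := gp_props hP hS hw hw2 hG p (J₀ * 2 ^ m) (n₀ * (2 ^ m) ^ 2)
    have q1 : (1 / 64 : ℝ) ^ p ≤ 1 := pow_le_one₀ (by norm_num) (by norm_num)
    refine hQ _ _ p1.1 p1.2.1 p1.2.2.1 (by positivity) (le_trans ?_ hc)
    exact mul_le_mul_of_nonneg_left (mul_le_of_le_one_left (by positivity) q1) (by positivity)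
  · intro n₀ J₀ s₀
    have h := hPt.dim (2 ^ m) (WithLp.toLp 2 ![s₀.1 * 2 ^ m, J₀ * 2 ^ m]) (n₀ * (2 ^ m) ^ 2 + s₀.2 * 2 ^ m) hS1
    refine le_trans ?_ h
    have hsub : (A.filter fun i => ⌊t i / ((2:ℝ) ^ m) ^ 2⌋ = n₀ ∧ ⌊x i 1 / (2:ℝ) ^ m⌋ = J₀ ∧
        (⌊x i 0 / (2:ℝ) ^ m⌋, ⌊(t i - ⌊t i / ((2:ℝ) ^ m) ^ 2⌋ * ((2:ℝ) ^ m) ^ 2) / 2 ^ m⌋) = s₀) ⊆
        A.filter fun i => (∀ k, |x i k - (WithLp.toLp 2 ![s₀.1 * 2 ^ m, J₀ * 2 ^ m] : E 2) k| ≤ 2 ^ m) ∧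
          |t i - (n₀ * (2 ^ m) ^ 2 + s₀.2 * 2 ^ m)| ≤ 2 ^ m := by
      intro i hi
      rw [Finset.mem_filter] at hi ⊢
      obtain ⟨hi, h1, h2, h3⟩ := hi
      have a1 := fl_pos (x := x i 0) hS
      have a2 := fl_pos (x := x i 1) hS
      have a3 := fl_pos (x := t i - ⌊t i / ((2:ℝ) ^ m) ^ 2⌋ * ((2:ℝ) ^ m) ^ 2) hS
      rw [h1] at h3 a3
      rw [h2] at a2
      rw [← h3]
      refine ⟨hi, ?_, ?_⟩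
      · intro k
        fin_cases k
        · show |x i 0 - ⌊x i 0 / (2:ℝ) ^ m⌋ * 2 ^ m| ≤ 2 ^ m
          rw [abs_of_nonneg a1.1]
          exact a1.2.le
        · show |x i 1 - J₀ * 2 ^ m| ≤ 2 ^ m
          rw [abs_of_nonneg a2.1]
          exact a2.2.le
      · have e : t i - (n₀ * ((2:ℝ) ^ m) ^ 2 + ⌊(t i - n₀ * ((2:ℝ) ^ m) ^ 2) / 2 ^ m⌋ * 2 ^ m) =
            t i - n₀ * ((2:ℝ) ^ m) ^ 2 - ⌊(t i - n₀ * ((2:ℝ) ^ m) ^ 2) / 2 ^ m⌋ * 2 ^ m := by ring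
        rw [e, abs_of_nonneg a3.1]
        exact a3.2.le
    exact Nat.cast_le.2 (Finset.card_le_card hsub)

theorem Pt.mono {g R : ℝ} {A B : Finset Ix} {x : Ix → E 2} {t : Ix → ℝ} (h : Pt g R A x t) (hB : B ⊆ A) :
    Pt g R B x t where
  t0 := fun i hi => h.t0 i (hB hi)
  tR := fun i hi => h.tR i (hB hi)
  cell := fun i hi j hj => h.cell i (hB hi) j (hB hj)
  dim := fun r y s hr => by
    refine le_trans ?_ (h.dim r y s hr)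
    exact_mod_cast Finset.card_le_card (Finset.filter_subset_filter _ hB)

/-- the crude bound, one pair of bumps -/
theorem crude1 {cT CE CP CB : ℝ} {N₀ : ℕ} {ψ₁ ψ₂ : ℝ → ℝ} (hcT : 0 < cT) (hCE : 0 < CE) (hCP : 0 < CP)
    (hCB : 1 ≤ CB) (hT : TAYb cT) (hE : ENb CE) (hP : PARb CP) (hC : CRb N₀ ψ₁ ψ₂ CB)
    {m : ℕ} {T w R g α Y₁ Y₂ : ℝ} {G₁ G₂ : E 2 → ℂ} {A : Finset Ix} {x : Ix → E 2} {t : Ix → ℝ}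
    (hw1 : 1 / 256 ≤ 2 ^ m * w) (hw2 : 2 ^ m * w ≤ 1 / 128) (hST : (2:ℝ) ^ m ≤ T) (hSR : (4:ℝ) ^ m ≤ R)
    (hg : 0 ≤ g) (hα : 0 < α) (hG₁ : Str w G₁) (hG₂ : Str w G₂)
    (hψ₁ : ∀ η, G₁ η ≠ 0 → ψ₁ (η 0) = 1) (hψ₂ : ∀ η, G₂ η ≠ 0 → ψ₂ (η 0) = 1)
    (hPt : Pt g R A x t)
    (hev : ∀ i ∈ A, α ≤ ‖evo G₁ (x i) (t i) 0‖ ∧ α ≤ ‖evo G₂ (x i) (t i) 0‖)
    (hY₁ : 0 < Y₁) (hY₂ : 0 < Y₂) (hc₁ : CB * (T / 2 ^ m) ^ N₀ * (CE * Y₁) ≤ (cT * α) ^ 2)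
    (hc₂ : CB * (T / 2 ^ m) ^ N₀ * (CE * Y₂) ≤ (cT * α) ^ 2)
    (he : ∀ i ∈ A, eG T w G₁ (x i) (t i) ≤ Y₁ ∧ eG T w G₂ (x i) (t i) ≤ Y₂) :
    (cT * α) ^ 2 * (A.card : ℝ) ≤ (32 * CB * CP * ((CE * Y₁) * (CE * Y₂) / (cT * α) ^ 4) * R +
      4 * CB * CP * (g * (T / 2 ^ m) ^ N₀ * (R / 2 ^ m))) * ((∫ η, ‖G₁ η‖ ^ 2) + ∫ η, ‖G₂ η‖ ^ 2) := by
  classical
  have hS : (0:ℝ) < 2 ^ m := by positivity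
  have hw : 0 < w := by
    by_contra h
    push Not at h
    have := mul_nonpos_of_nonneg_of_nonpos hS.le h
    linarith
  obtain ⟨B₁, B₂, hQ, hB⟩ := hC m T (cT * α) hST (by positivity)
  have hx : ∀ i ∈ A, |x i 1 - ⌊x i 1 / 2 ^ m⌋ * 2 ^ m| ≤ (2:ℝ) ^ m := by
    intro i hi
    have := fl_pos (x := x i 1) hS
    rw [abs_of_nonneg this.1]; exact this.2.le
  have ht : ∀ i ∈ A, |t i - ⌊t i / (2 ^ m) ^ 2⌋ * (2 ^ m) ^ 2| ≤ ((2:ℝ) ^ m) ^ 2 := by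
    intro i hi
    have := fl_pos (x := t i) (S := ((2:ℝ) ^ m) ^ 2) (by positivity)
    rw [abs_of_nonneg this.1]; exact this.2.le
  have h1 : ∀ i ∈ A, ∃ j : ℕ, cT * 8 ^ j * α ≤
      ‖X.sol (sl (2 ^ m) j (⌊x i 1 / 2 ^ m⌋ * 2 ^ m) (⌊t i / (2 ^ m) ^ 2⌋ * (2 ^ m) ^ 2) G₁) (x i 0)
        (t i - ⌊t i / (2 ^ m) ^ 2⌋ * (2 ^ m) ^ 2)‖ := fun i hi =>
    hT (2 ^ m) w _ _ α G₁ (x i) (t i) hS hw2 hG₁ (hx i hi) (ht i hi) hα (hev i hi).1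
  have h2 : ∀ i ∈ A, ∃ j : ℕ, cT * 8 ^ j * α ≤
      ‖X.sol (sl (2 ^ m) j (⌊x i 1 / 2 ^ m⌋ * 2 ^ m) (⌊t i / (2 ^ m) ^ 2⌋ * (2 ^ m) ^ 2) G₂) (x i 0)
        (t i - ⌊t i / (2 ^ m) ^ 2⌋ * (2 ^ m) ^ 2)‖ := fun i hi =>
    hT (2 ^ m) w _ _ α G₂ (x i) (t i) hS hw2 hG₂ (hx i hi) (ht i hi) hα (hev i hi).2
  choose! j₁ hj₁ using h1
  choose! j₂ hj₂ using h2
  set sq : Ix → ℤ × ℤ := fun i =>
    (⌊x i 0 / 2 ^ m⌋, ⌊(t i - ⌊t i / (2 ^ m) ^ 2⌋ * (2 ^ m) ^ 2) / 2 ^ m⌋) with hsq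
  set Q₁ : Ix → Finset (ℤ × ℤ) := fun i =>
    B₁ (gp (2 ^ m) (j₁ i) (⌊x i 1 / 2 ^ m⌋ * 2 ^ m) (⌊t i / (2 ^ m) ^ 2⌋ * (2 ^ m) ^ 2) G₁)
          ((1 / 64) ^ (j₁ i) * (CE * Y₁)) with hQ₁
  set Q₂ : Ix → Finset (ℤ × ℤ) := fun i =>
    B₂ (gp (2 ^ m) (j₂ i) (⌊x i 1 / 2 ^ m⌋ * 2 ^ m) (⌊t i / (2 ^ m) ^ 2⌋ * (2 ^ m) ^ 2) G₂)
          ((1 / 64) ^ (j₂ i) * (CE * Y₂)) with hQ₂
  set A₁ := A.filter fun i => sq i ∈ Q₁ i with hA₁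
  set A₂ := A.filter fun i => sq i ∈ Q₂ i with hA₂
  set A₃ := A.filter fun i => sq i ∉ Q₁ i ∧ sq i ∉ Q₂ i with hA₃
  have s1 : A₁ ⊆ A := Finset.filter_subset _ _
  have s2 : A₂ ⊆ A := Finset.filter_subset _ _
  have s3 : A₃ ⊆ A := Finset.filter_subset _ _
  have hcard : (A.card : ℝ) ≤ A₃.card + A₁.card + A₂.card := by
    have hsub : A ⊆ (A₃ ∪ A₁) ∪ A₂ := by
      intro i hi
      simp only [hA₁, hA₂, hA₃, Finset.mem_union, Finset.mem_filter]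
      tauto
    have := (Finset.card_le_card hsub).trans ((Finset.card_union_le _ _).trans
      (Nat.add_le_add_right (Finset.card_union_le _ _) _))
    exact_mod_cast this
  have g3 := good_part hcT hCE hCP hCB hE hP hw1 hw2 hST hSR hα hG₁ hG₂ hψ₁ hψ₂ (Pt.mono hPt s3) j₁ j₂
    (fun i hi => hj₁ i (s3 hi)) (fun i hi => hj₂ i (s3 hi)) hY₁ hY₂ hc₁ hc₂ (fun i hi => he i (s3 hi)) hB
    (fun i hi => (Finset.mem_filter.1 hi).2)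
  have g1 := bad_part (α := cT * α) hCP hCB hP hw hw2 hST hSR hg hG₁ (Pt.mono hPt s1) j₁ (Y := CE * Y₁)
    (by positivity) hc₁ (fun g Y a b c d e => (hQ g Y a b c d e).1) (fun i hi => (Finset.mem_filter.1 hi).2)
  have g2 := bad_part (α := cT * α) hCP hCB hP hw hw2 hST hSR hg hG₂ (Pt.mono hPt s2) j₂ (Y := CE * Y₂)
    (by positivity) hc₂ (fun g Y a b c d e => (hQ g Y a b c d e).2) (fun i hi => (Finset.mem_filter.1 hi).2)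
  have h0 : 0 ≤ (cT * α) ^ 2 := by positivity
  calc (cT * α) ^ 2 * (A.card : ℝ) ≤ (cT * α) ^ 2 * (A₃.card + A₁.card + A₂.card) :=
        mul_le_mul_of_nonneg_left hcard h0
    _ = (cT * α) ^ 2 * A₃.card + (cT * α) ^ 2 * A₁.card + (cT * α) ^ 2 * A₂.card := by ring
    _ ≤ 32 * CB * CP * ((CE * Y₁) * (CE * Y₂) / (cT * α) ^ 4) * R *
          ((∫ η, ‖G₁ η‖ ^ 2) + ∫ η, ‖G₂ η‖ ^ 2) +
        4 * CB * CP * (g * (T / 2 ^ m) ^ N₀ * (R / 2 ^ m)) * (∫ η, ‖G₁ η‖ ^ 2) +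
        4 * CB * CP * (g * (T / 2 ^ m) ^ N₀ * (R / 2 ^ m)) * (∫ η, ‖G₂ η‖ ^ 2) :=
        add_le_add (add_le_add g3 g1) g2
    _ = _ := by ring

end Vale.Agent.P076.H523
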