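import Vale.Agent.P076.H523.Crd3

/-! # P076 / TS.SLAB : the crude bilinear bound for given energy caps, final form (helper523) -/

set_option linter.all false

open MeasureTheory Complex Vale.Agent.P122.C2 Vale.Agent.P076.H23

namespace Vale.Agent.P076.H523

theorem evo_ne {G : E 2 → ℂ} {x : E 2} {t : ℝ} (h : evo G x t 0 ≠ 0) : ∃ η, G η ≠ 0 := by
  by_contra hc
  push Not at hc
  apply h
  have : G = fun _ => 0 := funext hc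
  rw [this]
  unfold evo
  simp

theorem crude (hT : StTAY) (hE : StEN) (hP : StPAR) (hC : StCR) : ∃ N₀ : ℕ, ∀ ν : ℝ, 0 < ν → ∃ C : ℝ, 1 ≤ C ∧
    ∀ (m : ℕ) (T w R g α a Y₁ Y₂ : ℝ) (G₁ G₂ : E 2 → ℂ) (A : Finset Ix) (x : Ix → E 2) (t : Ix → ℝ),
    1 / 256 ≤ 2 ^ m * w → 2 ^ m * w ≤ 1 / 128 → (2:ℝ) ^ m ≤ T → (4:ℝ) ^ m ≤ R → 0 ≤ g → 0 < α →
    Str w G₁ → Str w G₂ → (∀ η, G₁ η ≠ 0 → η 0 ≤ a) → (∀ η, G₂ η ≠ 0 → a + ν ≤ η 0) → Pt g R A x t →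
    (∀ i ∈ A, α ≤ ‖evo G₁ (x i) (t i) 0‖ ∧ α ≤ ‖evo G₂ (x i) (t i) 0‖) →
    0 < Y₁ → 0 < Y₂ → C * (T / 2 ^ m) ^ N₀ * Y₁ ≤ α ^ 2 → C * (T / 2 ^ m) ^ N₀ * Y₂ ≤ α ^ 2 →
    (∀ i ∈ A, eG T w G₁ (x i) (t i) ≤ Y₁ ∧ eG T w G₂ (x i) (t i) ≤ Y₂) →
    α ^ 2 * (A.card : ℝ) ≤ C * ((Y₁ * Y₂ / α ^ 4) * R + g * (T / 2 ^ m) ^ N₀ * (R / 2 ^ m)) *
      ((∫ η, ‖G₁ η‖ ^ 2) + ∫ η, ‖G₂ η‖ ^ 2) := by
  obtain ⟨cT, hcT, hT⟩ := hT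
  obtain ⟨CE, hCE, hE⟩ := hE
  obtain ⟨CP, hCP, hP⟩ := hP
  obtain ⟨N₀, hC⟩ := hC
  refine ⟨N₀, fun ν hν => ?_⟩
  obtain ⟨K, Ψ₁, Ψ₂, hb, hsep, hcov⟩ := bumps ν hν
  have h1 : ∀ k, ∃ C : ℝ, 1 ≤ C ∧ CRb N₀ (Ψ₁ k) (Ψ₂ k) C := fun k =>
    hC (Ψ₁ k) (Ψ₂ k) (hb k).1 (hb k).2 (ν / 4) (by linarith) (hsep k)
  choose Ck hCk1 hCk using h1
  set CB : ℝ := ∑ k ∈ K, Ck k with hCB
  have hCk0 : ∀ k, 0 ≤ Ck k := fun k => by linarith [hCk1 k]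
  have hCB0 : 0 ≤ CB := Finset.sum_nonneg fun k _ => hCk0 k
  have hle : ∀ k ∈ K, Ck k ≤ CB := fun k hk => Finset.single_le_sum (fun k _ => hCk0 k) hk
  refine ⟨1 + CB * CE / cT ^ 2 + 32 * CB * CP * CE ^ 2 / cT ^ 6 + 4 * CB * CP / cT ^ 2, ?_, ?_⟩
  · have a1 : 0 ≤ CB * CE / cT ^ 2 := by positivity
    have a2 : 0 ≤ 32 * CB * CP * CE ^ 2 / cT ^ 6 := by positivity
    have a3 : 0 ≤ 4 * CB * CP / cT ^ 2 := by positivity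
    linarith
  intro m T w R g α a Y₁ Y₂ G₁ G₂ A x t hw1 hw2 hST hSR hg hα hG₁ hG₂ hs₁ hs₂ hPt hev hY₁ hY₂ hc₁ hc₂ he
  set C := 1 + CB * CE / cT ^ 2 + 32 * CB * CP * CE ^ 2 / cT ^ 6 + 4 * CB * CP / cT ^ 2 with hCdef
  have a1 : 0 ≤ CB * CE / cT ^ 2 := by positivity
  have a2 : 0 ≤ 32 * CB * CP * CE ^ 2 / cT ^ 6 := by positivity
  have a3 : 0 ≤ 4 * CB * CP / cT ^ 2 := by positivity
  have hI₁ : 0 ≤ ∫ η, ‖G₁ η‖ ^ 2 := integral_nonneg fun η => by positivity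
  have hI₂ : 0 ≤ ∫ η, ‖G₂ η‖ ^ 2 := integral_nonneg fun η => by positivity
  have hS : (0:ℝ) < 2 ^ m := by positivity
  have hT0 : 0 < T := lt_of_lt_of_le hS hST
  have hR : 0 < R := lt_of_lt_of_le (by positivity) hSR
  rcases A.eq_empty_or_nonempty with rfl | ⟨i₀, hi₀⟩
  · rw [Finset.card_empty, Nat.cast_zero, mul_zero]
    have : 0 ≤ C := by linarith
    positivity
  have hne₁ : evo G₁ (x i₀) (t i₀) 0 ≠ 0 := by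
    intro h
    have := (hev i₀ hi₀).1
    rw [h, norm_zero] at this
    linarith
  have hne₂ : evo G₂ (x i₀) (t i₀) 0 ≠ 0 := by
    intro h
    have := (hev i₀ hi₀).2
    rw [h, norm_zero] at this
    linarith
  obtain ⟨η₁, hη₁⟩ := evo_ne hne₁
  obtain ⟨η₂, hη₂⟩ := evo_ne hne₂
  have b1 : -1 ≤ a := by
    have := (abs_le.1 (hG₁.s0 _ hη₁)).1
    have := hs₁ _ hη₁
    linarith
  have b2 : a ≤ 1 := by
    have := (abs_le.1 (hG₂.s0 _ hη₂)).2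
    have := hs₂ _ hη₂
    linarith
  obtain ⟨k, hk, hk₁, hk₂⟩ := hcov a b1 b2
  have hCEle : ∀ Y : ℝ, 0 < Y → C * (T / 2 ^ m) ^ N₀ * Y ≤ α ^ 2 →
      Ck k * (T / 2 ^ m) ^ N₀ * (CE * Y) ≤ (cT * α) ^ 2 := by
    intro Y hY h
    have e1 : Ck k * CE ≤ cT ^ 2 * C := by
      have e2 : cT ^ 2 * (CB * CE / cT ^ 2) = CB * CE := by field_simp
      have e3 : cT ^ 2 * (CB * CE / cT ^ 2) ≤ cT ^ 2 * C := mul_le_mul_of_nonneg_left (by linarith) (by positivity)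
      have e4 : Ck k * CE ≤ CB * CE := mul_le_mul_of_nonneg_right (hle k hk) hCE.le
      linarith
    calc Ck k * (T / 2 ^ m) ^ N₀ * (CE * Y) = (Ck k * CE) * ((T / 2 ^ m) ^ N₀ * Y) := by ring
      _ ≤ (cT ^ 2 * C) * ((T / 2 ^ m) ^ N₀ * Y) := mul_le_mul_of_nonneg_right e1 (by positivity)
      _ = cT ^ 2 * (C * (T / 2 ^ m) ^ N₀ * Y) := by ring
      _ ≤ cT ^ 2 * α ^ 2 := mul_le_mul_of_nonneg_left h (by positivity)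
      _ = _ := by ring
  have key := crude1 hcT hCE hCP (hCk1 k) hT hE hP (hCk k) hw1 hw2 hST hSR hg hα hG₁ hG₂
    (fun η hη => hk₁ (η 0) (abs_le.1 (hG₁.s0 _ hη)).1 (hs₁ _ hη))
    (fun η hη => hk₂ (η 0) (hs₂ _ hη) (abs_le.1 (hG₂.s0 _ hη)).2) hPt hev hY₁ hY₂
    (hCEle Y₁ hY₁ hc₁) (hCEle Y₂ hY₂ hc₂) he
  have key2 : α ^ 2 * (A.card : ℝ) ≤ (cT ^ 2)⁻¹ * ((32 * Ck k * CP * ((CE * Y₁) * (CE * Y₂) / (cT * α) ^ 4) * R +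
      4 * Ck k * CP * (g * (T / 2 ^ m) ^ N₀ * (R / 2 ^ m))) * ((∫ η, ‖G₁ η‖ ^ 2) + ∫ η, ‖G₂ η‖ ^ 2)) := by
    rw [inv_mul_eq_div, le_div_iff₀ (by positivity)]
    calc α ^ 2 * (A.card : ℝ) * cT ^ 2 = (cT * α) ^ 2 * (A.card : ℝ) := by ring
      _ ≤ _ := key
  refine key2.trans ?_
  rw [← mul_assoc]
  refine mul_le_mul_of_nonneg_right ?_ (by positivity)
  calc (cT ^ 2)⁻¹ * (32 * Ck k * CP * ((CE * Y₁) * (CE * Y₂) / (cT * α) ^ 4) * R +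
      4 * Ck k * CP * (g * (T / 2 ^ m) ^ N₀ * (R / 2 ^ m)))
      ≤ (cT ^ 2)⁻¹ * (32 * CB * CP * ((CE * Y₁) * (CE * Y₂) / (cT * α) ^ 4) * R +
      4 * CB * CP * (g * (T / 2 ^ m) ^ N₀ * (R / 2 ^ m))) := by
        have := hle k hk
        gcongr
    _ = (32 * CB * CP * CE ^ 2 / cT ^ 6) * ((Y₁ * Y₂ / α ^ 4) * R) +
        (4 * CB * CP / cT ^ 2) * (g * (T / 2 ^ m) ^ N₀ * (R / 2 ^ m)) := by
        field_simp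
    _ ≤ C * ((Y₁ * Y₂ / α ^ 4) * R) + C * (g * (T / 2 ^ m) ^ N₀ * (R / 2 ^ m)) := by
        refine add_le_add (mul_le_mul_of_nonneg_right (by linarith) (by positivity))
          (mul_le_mul_of_nonneg_right (by linarith) (by positivity))
    _ = _ := by ring

end Vale.Agent.P076.H523
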