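import Vale.Agent.P076.H523.Crd4
import Vale.Agent.P076.H429.SlabNum
import Vale.Agent.P076.H780.Triv

/-! # P076 / TS.SLAB : the assembly `StSLAB` (helper523) -/

set_option linter.all false

open MeasureTheory Complex Vale.Agent.P122.C2 Vale.Agent.P076.H23

namespace Vale.Agent.P076.H523

theorem scale_exists {w : ℝ} (hw : 0 < w) (hw1 : w ≤ 1 / 128) : ∃ m : ℕ, 1 / 256 ≤ 2 ^ m * w ∧ 2 ^ m * w ≤ 1 / 128 := by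
  have h1 : 1 ≤ 1 / 128 / w := by rw [le_div_iff₀ hw]; linarith
  obtain ⟨m, hm1, hm2⟩ := exists_nat_pow_near h1 (by norm_num : (1:ℝ) < 2)
  rw [le_div_iff₀ hw] at hm1
  rw [div_lt_iff₀ hw, pow_succ] at hm2
  exact ⟨m, by linarith, hm1⟩

theorem triv' : ∃ C : ℝ, 0 ≤ C ∧ ∀ (R w g α : ℝ) (G : E 2 → ℂ) (A : Finset Ix) (x : Ix → E 2) (t : Ix → ℝ), 1 ≤ R →
    w ≤ 1 → 0 ≤ α → Str w G → Pt g R A x t → (∀ i ∈ A, α ≤ ‖evo G (x i) (t i) 0‖) →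
      α ^ 2 * (A.card : ℝ) ≤ C * R * ∫ η, ‖G η‖ ^ 2 := by
  obtain ⟨C, hC, h⟩ := Vale.Agent.P076.H780.triv
  refine ⟨C, hC, ?_⟩
  intro R w g α G A x t hR hw hα hG hPt hev
  have h1 := h R G A x t hR hG.meas hG.bdd (by
    intro η hη k
    fin_cases k
    · exact hG.s0 η hη
    · exact (hG.s1 η hη).trans hw) hPt.t0 hPt.tR hPt.cell
  refine le_trans ?_ h1
  calc α ^ 2 * (A.card : ℝ) = ∑ i ∈ A, α ^ 2 := by rw [Finset.sum_const, nsmul_eq_mul]; ring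
    _ ≤ _ := Finset.sum_le_sum fun i hi => pow_le_pow_left₀ hα (hev i hi) 2

/-- numbers of H4 -/
theorem h4_num {R g c₁ c₂ : ℝ} {N₀ : ℕ} (hR : 1 ≤ R) (hg : 1 ≤ g) (hgR : g ≤ R ^ (12 / 25 : ℝ)) (hc₁ : 0 < c₁)
    (hc₁' : c₁ ≤ 1 / 4000) (hN : N₀ * (c₁ + c₂) ≤ 1 / 2000) {m : ℕ}
    (hm : 1 / 256 ≤ 2 ^ m * R ^ (c₁ - 1 / 2)) :
    (R ^ (1 / 2 + c₂) / 2 ^ m) ^ N₀ ≤ 256 ^ N₀ * R ^ (1 / 1000 : ℝ) ∧
    g * (R ^ (1 / 2 + c₂) / 2 ^ m) ^ N₀ * (R / 2 ^ m) ≤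
      256 ^ (N₀ + 1) * (R ^ (-(1 / 1000 : ℝ)) * (g * R) ^ (2 / 3 : ℝ)) := by
  have hR0 : 0 < R := by linarith
  have hg0 : 0 < g := by linarith
  have hS : (0:ℝ) < 2 ^ m := by positivity
  have h1 : 1 / (2:ℝ) ^ m ≤ 256 * R ^ (c₁ - 1 / 2) := by
    rw [div_le_iff₀ hS]; linarith
  have h2 : R ^ (1 / 2 + c₂) / 2 ^ m ≤ 256 * R ^ (c₁ + c₂) := by
    calc R ^ (1 / 2 + c₂) / 2 ^ m = R ^ (1 / 2 + c₂) * (1 / 2 ^ m) := by ring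
      _ ≤ R ^ (1 / 2 + c₂) * (256 * R ^ (c₁ - 1 / 2)) := mul_le_mul_of_nonneg_left h1 (by positivity)
      _ = 256 * (R ^ (1 / 2 + c₂) * R ^ (c₁ - 1 / 2)) := by ring
      _ = _ := by rw [← Real.rpow_add hR0]; congr 2; ring
  have h3 : (R ^ (1 / 2 + c₂) / 2 ^ m) ^ N₀ ≤ 256 ^ N₀ * R ^ (1 / 2000 : ℝ) := by
    calc (R ^ (1 / 2 + c₂) / 2 ^ m) ^ N₀ ≤ (256 * R ^ (c₁ + c₂)) ^ N₀ := pow_le_pow_left₀ (by positivity) h2 _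
      _ = 256 ^ N₀ * R ^ (N₀ * (c₁ + c₂)) := by
          rw [mul_pow, ← Real.rpow_natCast (R ^ (c₁ + c₂)), ← Real.rpow_mul hR0.le]
          congr 2; ring
      _ ≤ _ := mul_le_mul_of_nonneg_left (Real.rpow_le_rpow_of_exponent_le hR hN) (by positivity)
  refine ⟨h3.trans (mul_le_mul_of_nonneg_left (Real.rpow_le_rpow_of_exponent_le hR (by norm_num)) (by positivity)), ?_⟩
  have h4 : g = g ^ (1 / 3 : ℝ) * g ^ (2 / 3 : ℝ) := by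
    rw [← Real.rpow_add hg0]; norm_num
  have h5 : g ^ (1 / 3 : ℝ) ≤ R ^ (4 / 25 : ℝ) := by
    calc g ^ (1 / 3 : ℝ) ≤ (R ^ (12 / 25 : ℝ)) ^ (1 / 3 : ℝ) := Real.rpow_le_rpow hg0.le hgR (by norm_num)
      _ = _ := by rw [← Real.rpow_mul hR0.le]; norm_num
  have h6 : g * R ^ (1 / 2000 : ℝ) * (R * R ^ (c₁ - 1 / 2)) ≤ R ^ (-(1 / 1000 : ℝ)) * (g * R) ^ (2 / 3 : ℝ) := by
    rw [Real.mul_rpow hg0.le hR0.le]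
    have e1 : R * R ^ (c₁ - 1 / 2) = R ^ (c₁ + 1 / 2) := by
      nth_rewrite 1 [← Real.rpow_one R]
      rw [← Real.rpow_add hR0]; congr 1; ring
    rw [e1]
    calc g * R ^ (1 / 2000 : ℝ) * R ^ (c₁ + 1 / 2)
        = g ^ (1 / 3 : ℝ) * g ^ (2 / 3 : ℝ) * (R ^ (1 / 2000 : ℝ) * R ^ (c₁ + 1 / 2)) := by
          nth_rewrite 1 [h4]; ring
      _ ≤ R ^ (4 / 25 : ℝ) * g ^ (2 / 3 : ℝ) * (R ^ (1 / 2000 : ℝ) * R ^ (c₁ + 1 / 2)) := by gcongr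
      _ = g ^ (2 / 3 : ℝ) * R ^ (4 / 25 + (1 / 2000 + (c₁ + 1 / 2))) := by
          rw [Real.rpow_add hR0 (4 / 25), Real.rpow_add hR0 (1 / 2000)]; ring
      _ ≤ g ^ (2 / 3 : ℝ) * R ^ (-(1 / 1000) + 2 / 3 : ℝ) := by
          refine mul_le_mul_of_nonneg_left (Real.rpow_le_rpow_of_exponent_le hR ?_) (by positivity)
          linarith
      _ = _ := by rw [Real.rpow_add hR0]; ring
  calc g * (R ^ (1 / 2 + c₂) / 2 ^ m) ^ N₀ * (R / 2 ^ m)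
      = g * (R ^ (1 / 2 + c₂) / 2 ^ m) ^ N₀ * (R * (1 / 2 ^ m)) := by ring
    _ ≤ g * (256 ^ N₀ * R ^ (1 / 2000 : ℝ)) * (R * (256 * R ^ (c₁ - 1 / 2))) := by gcongr
    _ = 256 ^ (N₀ + 1) * (g * R ^ (1 / 2000 : ℝ) * (R * R ^ (c₁ - 1 / 2))) := by ring
    _ ≤ _ := mul_le_mul_of_nonneg_left h6 (by positivity)

theorem kz : ∃ K₀ : ℝ, 0 ≤ K₀ ∧ ∀ R : ℝ, 0 ≤ R → R ≤ 128 ^ 3 → R ^ (1 / 3 + 1 / 1000 : ℝ) ≤ K₀ :=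
  ⟨(128 ^ 3) ^ (1 / 3 + 1 / 1000 : ℝ), Real.rpow_nonneg (by norm_num) _,
    fun R h0 h => Real.rpow_le_rpow h0 h (by norm_num)⟩

/-- **(H4)** for all `R ≥ 1` -/
theorem h4 (hT : StTAY) (hE : StEN) (hP : StPAR) (hC : StCR) : ∃ c₁ c₂ : ℝ, 0 < c₁ ∧ c₁ < c₂ ∧ c₂ < 1 / 8 ∧
    ∀ ν : ℝ, 0 < ν → ∃ C : ℝ, 1 ≤ C ∧ ∀ (R g α a Y₁ Y₂ : ℝ) (G₁ G₂ : E 2 → ℂ) (A : Finset Ix) (x : Ix → E 2)
    (t : Ix → ℝ), 1 ≤ R → 1 ≤ g → g ≤ R ^ (12 / 25 : ℝ) → 0 < α → Str (R ^ (c₁ - 1 / 2)) G₁ →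
    Str (R ^ (c₁ - 1 / 2)) G₂ → (∀ η, G₁ η ≠ 0 → η 0 ≤ a) → (∀ η, G₂ η ≠ 0 → a + ν ≤ η 0) → Pt g R A x t →
    (∀ i ∈ A, α ≤ ‖evo G₁ (x i) (t i) 0‖ ∧ α ≤ ‖evo G₂ (x i) (t i) 0‖) → 0 < Y₁ → 0 < Y₂ →
    C * R ^ (1 / 1000 : ℝ) * Y₁ ≤ α ^ 2 → C * R ^ (1 / 1000 : ℝ) * Y₂ ≤ α ^ 2 →
    (∀ i ∈ A, eG (R ^ (1 / 2 + c₂)) (R ^ (c₁ - 1 / 2)) G₁ (x i) (t i) ≤ Y₁ ∧
      eG (R ^ (1 / 2 + c₂)) (R ^ (c₁ - 1 / 2)) G₂ (x i) (t i) ≤ Y₂) →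
    α ^ 2 * (A.card : ℝ) ≤ C * (Y₁ * Y₂ / α ^ 4 * R + R ^ (-(1 / 1000 : ℝ)) * (g * R) ^ (2 / 3 : ℝ)) *
      ((∫ η, ‖G₁ η‖ ^ 2) + ∫ η, ‖G₂ η‖ ^ 2) := by
  obtain ⟨N₀, hcr⟩ := crude hT hE hP hC
  obtain ⟨Ct, hCt, htr⟩ := triv'
  obtain ⟨K₀, hK₀, hK₀'⟩ := kz
  set c₂ : ℝ := 1 / (4000 * (N₀ + 1)) with hc₂
  have hN1 : (0:ℝ) < (N₀ : ℝ) + 1 := by positivity
  have hc₂0 : 0 < c₂ := by positivity
  have hc₂1 : c₂ ≤ 1 / 4000 := by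
    rw [hc₂]
    apply one_div_le_one_div_of_le (by norm_num)
    have : (0:ℝ) ≤ N₀ := Nat.cast_nonneg _
    linarith
  refine ⟨c₂ / 2, c₂, by linarith, by linarith, by linarith, fun ν hν => ?_⟩
  obtain ⟨Cc, hCc, hcr⟩ := hcr ν hν
  have hNc : (N₀ : ℝ) * (c₂ / 2 + c₂) ≤ 1 / 2000 := by
    have e : ((N₀ : ℝ) + 1) * c₂ = 1 / 4000 := by rw [hc₂]; field_simp
    have : (N₀ : ℝ) * c₂ ≤ 1 / 4000 := by linarith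
    linarith
  refine ⟨Cc * 256 ^ (N₀ + 1) + Ct * K₀, ?_, ?_⟩
  · have h1 : (1:ℝ) ≤ 256 ^ (N₀ + 1) := one_le_pow₀ (by norm_num)
    have h2 : 1 * 1 ≤ Cc * 256 ^ (N₀ + 1) := mul_le_mul hCc h1 (by norm_num) (by linarith)
    have h3 : 0 ≤ Ct * K₀ := by positivity
    linarith
  intro R g α a Y₁ Y₂ G₁ G₂ A x t hR hg hgR hα hG₁ hG₂ hs₁ hs₂ hPt hev hY₁ hY₂ hc₁ hc₂' he
  set C : ℝ := Cc * 256 ^ (N₀ + 1) + Ct * K₀ with hCdef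
  have hR0 : 0 < R := by linarith
  have hg0 : 0 < g := by linarith
  have hI₁ : 0 ≤ ∫ η, ‖G₁ η‖ ^ 2 := integral_nonneg fun η => by positivity
  have hI₂ : 0 ≤ ∫ η, ‖G₂ η‖ ^ 2 := integral_nonneg fun η => by positivity
  have hCc0 : 0 < Cc := by linarith
  set w := R ^ (c₂ / 2 - 1 / 2) with hw
  have hw0 : 0 < w := by positivity
  have hw1 : w ≤ 1 := Real.rpow_le_one_of_one_le_of_nonpos hR (by linarith)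
  have hCt1 : 0 ≤ Ct * K₀ := by positivity
  rcases le_or_gt w (1 / 128) with hws | hws
  · -- the main case
    obtain ⟨m, hm1, hm2⟩ := scale_exists hw0 hws
    have hS : (0:ℝ) < 2 ^ m := by positivity
    obtain ⟨n1, n2⟩ := h4_num (c₁ := c₂ / 2) (c₂ := c₂) hR hg hgR (by linarith) (by linarith) hNc hm1
    have hSw : (2:ℝ) ^ m ≤ R ^ (1 / 2 - c₂ / 2) := by
      have e1 : w * R ^ (1 / 2 - c₂ / 2) = 1 := by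
        rw [hw, ← Real.rpow_add hR0]; norm_num
      have e2 : (2:ℝ) ^ m * w ≤ 1 := by linarith
      calc (2:ℝ) ^ m = (2 ^ m * w) * R ^ (1 / 2 - c₂ / 2) := by rw [mul_assoc, e1, mul_one]
        _ ≤ 1 * R ^ (1 / 2 - c₂ / 2) := mul_le_mul_of_nonneg_right e2 (by positivity)
        _ = _ := one_mul _
    have hST : (2:ℝ) ^ m ≤ R ^ (1 / 2 + c₂) :=
      hSw.trans (Real.rpow_le_rpow_of_exponent_le hR (by linarith))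
    have hSR : (4:ℝ) ^ m ≤ R := by
      have e : ((2:ℝ) ^ m) ^ 2 = 4 ^ m := by rw [← pow_mul, mul_comm, pow_mul]; norm_num
      rw [← e]
      calc ((2:ℝ) ^ m) ^ 2 ≤ (R ^ (1 / 2 : ℝ)) ^ 2 :=
            pow_le_pow_left₀ hS.le (hSw.trans (Real.rpow_le_rpow_of_exponent_le hR (by linarith))) 2
        _ = R := by rw [← Real.rpow_natCast, ← Real.rpow_mul hR0.le]; norm_num
    have hthr : ∀ Y : ℝ, 0 < Y → C * R ^ (1 / 1000 : ℝ) * Y ≤ α ^ 2 →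
        Cc * (R ^ (1 / 2 + c₂) / 2 ^ m) ^ N₀ * Y ≤ α ^ 2 := by
      intro Y hY h
      refine le_trans (mul_le_mul_of_nonneg_right ?_ hY.le) h
      calc Cc * (R ^ (1 / 2 + c₂) / 2 ^ m) ^ N₀ ≤ Cc * (256 ^ N₀ * R ^ (1 / 1000 : ℝ)) :=
            mul_le_mul_of_nonneg_left n1 hCc0.le
        _ = Cc * 256 ^ N₀ * R ^ (1 / 1000 : ℝ) := by ring
        _ ≤ C * R ^ (1 / 1000 : ℝ) := by
            refine mul_le_mul_of_nonneg_right ?_ (by positivity)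
            have : Cc * 256 ^ N₀ ≤ Cc * 256 ^ (N₀ + 1) :=
              mul_le_mul_of_nonneg_left (pow_le_pow_right₀ (by norm_num) (Nat.le_succ _)) hCc0.le
            linarith
    have key := hcr m (R ^ (1 / 2 + c₂)) w R g α a Y₁ Y₂ G₁ G₂ A x t hm1 hm2 hST hSR hg0.le hα hG₁ hG₂ hs₁ hs₂ hPt
      hev hY₁ hY₂ (hthr Y₁ hY₁ hc₁) (hthr Y₂ hY₂ hc₂') he
    refine key.trans (mul_le_mul_of_nonneg_right ?_ (by positivity))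
    have hpos : 0 ≤ R ^ (-(1 / 1000 : ℝ)) * (g * R) ^ (2 / 3 : ℝ) := by positivity
    have h256 : (1:ℝ) ≤ 256 ^ (N₀ + 1) := one_le_pow₀ (by norm_num)
    calc Cc * (Y₁ * Y₂ / α ^ 4 * R + g * (R ^ (1 / 2 + c₂) / 2 ^ m) ^ N₀ * (R / 2 ^ m))
        ≤ Cc * (256 ^ (N₀ + 1) * (Y₁ * Y₂ / α ^ 4 * R) +
            256 ^ (N₀ + 1) * (R ^ (-(1 / 1000 : ℝ)) * (g * R) ^ (2 / 3 : ℝ))) := by
          refine mul_le_mul_of_nonneg_left (add_le_add ?_ n2) hCc0.le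
          exact le_mul_of_one_le_left (by positivity) h256
      _ = Cc * 256 ^ (N₀ + 1) * (Y₁ * Y₂ / α ^ 4 * R + R ^ (-(1 / 1000 : ℝ)) * (g * R) ^ (2 / 3 : ℝ)) := by ring
      _ ≤ _ := mul_le_mul_of_nonneg_right (by linarith) (by positivity)
  · -- `R` bounded
    have hRb : R ≤ 128 ^ 3 := by
      by_contra hcon
      push Not at hcon
      have h1 : w ≤ R ^ (-(1 / 3) : ℝ) := Real.rpow_le_rpow_of_exponent_le hR (by linarith)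
      have h2 : R ^ (-(1 / 3) : ℝ) ≤ ((128:ℝ) ^ 3) ^ (-(1 / 3) : ℝ) :=
        Real.rpow_le_rpow_of_nonpos (by norm_num) hcon.le (by norm_num)
      have h3 : ((128:ℝ) ^ 3) ^ (-(1 / 3) : ℝ) = 1 / 128 := by
        rw [← Real.rpow_natCast, ← Real.rpow_mul (by norm_num)]
        norm_num [Real.rpow_neg_one]
      linarith
    have h1 := htr R w g α G₁ A x t hR hw1 hα.le hG₁ hPt (fun i hi => (hev i hi).1)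
    have h2 : R ≤ K₀ * (R ^ (-(1 / 1000 : ℝ)) * (g * R) ^ (2 / 3 : ℝ)) := by
      have e1 : R = R ^ (1 / 3 + 1 / 1000 : ℝ) * (R ^ (-(1 / 1000 : ℝ)) * R ^ (2 / 3 : ℝ)) := by
        rw [← Real.rpow_add hR0, ← Real.rpow_add hR0]
        norm_num
      calc R = R ^ (1 / 3 + 1 / 1000 : ℝ) * (R ^ (-(1 / 1000 : ℝ)) * R ^ (2 / 3 : ℝ)) := e1
        _ ≤ K₀ * (R ^ (-(1 / 1000 : ℝ)) * (g * R) ^ (2 / 3 : ℝ)) := by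
            have : R ≤ g * R := le_mul_of_one_le_left hR0.le hg
            have h3 := hK₀' R hR0.le hRb
            gcongr
    calc α ^ 2 * (A.card : ℝ) ≤ Ct * R * ∫ η, ‖G₁ η‖ ^ 2 := h1
      _ ≤ Ct * (K₀ * (R ^ (-(1 / 1000 : ℝ)) * (g * R) ^ (2 / 3 : ℝ))) *
          ((∫ η, ‖G₁ η‖ ^ 2) + ∫ η, ‖G₂ η‖ ^ 2) := by
          refine mul_le_mul (mul_le_mul_of_nonneg_left h2 hCt) (by linarith) hI₁ (by positivity)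
      _ = (Ct * K₀) * (R ^ (-(1 / 1000 : ℝ)) * (g * R) ^ (2 / 3 : ℝ)) *
          ((∫ η, ‖G₁ η‖ ^ 2) + ∫ η, ‖G₂ η‖ ^ 2) := by ring
      _ ≤ C * (Y₁ * Y₂ / α ^ 4 * R + R ^ (-(1 / 1000 : ℝ)) * (g * R) ^ (2 / 3 : ℝ)) *
          ((∫ η, ‖G₁ η‖ ^ 2) + ∫ η, ‖G₂ η‖ ^ 2) := by
          refine mul_le_mul_of_nonneg_right ?_ (by positivity)
          have q1 : 0 ≤ Cc * 256 ^ (N₀ + 1) := by positivity
          have q2 : 0 ≤ Y₁ * Y₂ / α ^ 4 * R := by positivity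
          refine mul_le_mul (by linarith) (by linarith) (by positivity) (by linarith)

end Vale.Agent.P076.H523
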