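import Vale.Agent.P076.H523.Slab

/-! # P076 / TS.SLAB : **StSLAB** (helper523) -/

set_option linter.all false

open MeasureTheory Complex Vale.Agent.P122.C2 Vale.Agent.P076.H23

namespace Vale.Agent.P076.H523

theorem slab : StSLAB := by
  intro hL1 hL2 hT hE hP hC
  obtain ⟨c₁, c₂, hc₁, hc₁₂, hc₂, h4⟩ := h4 hT hE hP hC
  obtain ⟨δ, hδ, hnum⟩ := Vale.Agent.P076.H429.slab_num' (1 / 1000) (by norm_num) le_rfl
  refine ⟨c₁, c₂, δ, hc₁, hc₁₂, hc₂, hδ, fun ν hν => ?_⟩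
  obtain ⟨C1, hL1⟩ := hL1
  obtain ⟨C2, hL2⟩ := hL2 ν hν
  obtain ⟨C4, hC4, h4⟩ := h4 ν hν
  obtain ⟨C5, hC5, htr⟩ := triv'
  obtain ⟨C, hC0, hnum⟩ := hnum (|C1| + 1) (|C2| + 1) 1 C4 (C5 + 1) (by linarith [abs_nonneg C1])
    (by linarith [abs_nonneg C2]) le_rfl hC4 (by linarith)
  refine ⟨C, ?_⟩
  intro R g α a y₀ G₁ G₂ A x t hR hg hgR hα hG₁ hG₂ hs₁ hs₂ hPt hloc hev
  have hR0 : 0 < R := by linarith
  have hg0 : 0 < g := by linarith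
  have hI₁ : 0 ≤ ∫ η, ‖G₁ η‖ ^ 2 := integral_nonneg fun η => by positivity
  have hI₂ : 0 ≤ ∫ η, ‖G₂ η‖ ^ 2 := integral_nonneg fun η => by positivity
  rcases hα.eq_or_lt with h0 | hα
  · rw [← h0]
    have : 0 ≤ (min 1 ((A.card : ℝ) / (g * R ^ 2))) := le_min (by norm_num) (by positivity)
    have h2 : (0:ℝ) ^ 2 * (A.card : ℝ) = 0 := by ring
    rw [h2]
    positivity
  set T : ℝ := R ^ (1 / 2 + c₂) with hTdef
  set w : ℝ := R ^ (c₁ - 1 / 2) with hw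
  have hT1 : 1 ≤ T := Real.one_le_rpow hR (by linarith)
  have hT0 : 0 < T := by linarith
  have hTR : T ≤ R := by
    calc T ≤ R ^ (1 : ℝ) := Real.rpow_le_rpow_of_exponent_le hR (by linarith)
      _ = R := Real.rpow_one R
  have hRT : R ≤ T ^ 2 := by
    have e : T ^ 2 = R ^ (1 + 2 * c₂) := by
      rw [hTdef, ← Real.rpow_natCast, ← Real.rpow_mul hR0.le]; congr 1; push_cast; ring
    rw [e]
    calc R = R ^ (1 : ℝ) := (Real.rpow_one R).symm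
      _ ≤ _ := Real.rpow_le_rpow_of_exponent_le hR (by linarith)
  have hw0 : 0 < w := by positivity
  have hw1 : w ≤ 1 := Real.rpow_le_one_of_one_le_of_nonpos hR (by linarith)
  have hTw : T * w ^ 2 ≤ 1 := by
    have e : T * w ^ 2 = R ^ (c₂ + 2 * c₁ - 1 / 2) := by
      rw [hTdef, hw, ← Real.rpow_natCast, ← Real.rpow_mul hR0.le, ← Real.rpow_add hR0]; congr 1; push_cast; ring
    rw [e]
    exact Real.rpow_le_one_of_one_le_of_nonpos hR (by linarith)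
  have hsq : Real.sqrt R = R ^ (1 / 2 : ℝ) := Real.sqrt_eq_rpow R
  have hblk : ∀ P ⊆ A, Set.InjOn (fun i : Ix => (⌊x i 0 / T⌋, ⌊t i / T⌋)) P → Blk T R P x t := by
    intro P hP hinj
    refine ⟨fun i hi => hPt.t0 i (hP hi), fun i hi => hPt.tR i (hP hi), ?_⟩
    intro i hi j hj h1 h2
    exact hinj hi hj (by simp only [h1, h2])
  refine hnum A (fun i : Ix => (⌊x i 0 / T⌋, ⌊t i / T⌋)) (fun i => eG T w G₁ (x i) (t i))
    (fun i => eG T w G₂ (x i) (t i)) R T g α ((∫ η, ‖G₁ η‖ ^ 2) + ∫ η, ‖G₂ η‖ ^ 2) hR hT0 hg hgR hα (by positivity)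
    ?_ ?_ ?_ ?_ ?_ ?_
  · intro P hP hinj
    have h := hL1 R T w G₁ P x t hT1 hTR hRT hw0 hw1 hTw hG₁ (hblk P hP hinj)
    rw [hsq] at h
    refine h.trans ?_
    have h1 : C1 ≤ |C1| + 1 := by linarith [le_abs_self C1]
    calc C1 * R ^ (1 / 2 : ℝ) / T ^ 2 * ∫ η, ‖G₁ η‖ ^ 2 = C1 * (R ^ (1 / 2 : ℝ) / T ^ 2 * ∫ η, ‖G₁ η‖ ^ 2) := by ring
      _ ≤ (|C1| + 1) * (R ^ (1 / 2 : ℝ) / T ^ 2 * ∫ η, ‖G₁ η‖ ^ 2) := mul_le_mul_of_nonneg_right h1 (by positivity)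
      _ ≤ (|C1| + 1) * (R ^ (1 / 2 : ℝ) / T ^ 2 * ((∫ η, ‖G₁ η‖ ^ 2) + ∫ η, ‖G₂ η‖ ^ 2)) := by
          refine mul_le_mul_of_nonneg_left (mul_le_mul_of_nonneg_left (by linarith) (by positivity)) (by positivity)
  · intro P hP hinj
    have h := hL1 R T w G₂ P x t hT1 hTR hRT hw0 hw1 hTw hG₂ (hblk P hP hinj)
    rw [hsq] at h
    refine h.trans ?_
    have h1 : C1 ≤ |C1| + 1 := by linarith [le_abs_self C1]
    calc C1 * R ^ (1 / 2 : ℝ) / T ^ 2 * ∫ η, ‖G₂ η‖ ^ 2 = C1 * (R ^ (1 / 2 : ℝ) / T ^ 2 * ∫ η, ‖G₂ η‖ ^ 2) := by ring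
      _ ≤ (|C1| + 1) * (R ^ (1 / 2 : ℝ) / T ^ 2 * ∫ η, ‖G₂ η‖ ^ 2) := mul_le_mul_of_nonneg_right h1 (by positivity)
      _ ≤ (|C1| + 1) * (R ^ (1 / 2 : ℝ) / T ^ 2 * ((∫ η, ‖G₁ η‖ ^ 2) + ∫ η, ‖G₂ η‖ ^ 2)) := by
          refine mul_le_mul_of_nonneg_left (mul_le_mul_of_nonneg_left (by linarith) (by positivity)) (by positivity)
  · intro P hP hinj Λ hΛ he
    have h := hL2 R T w a Λ G₁ G₂ P x t hT1 hTR hRT hw0 hw1 hTw hG₁ hG₂ hs₁ hs₂ (hblk P hP hinj) hΛ.le he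
    rw [hsq] at h
    refine h.trans ?_
    have h1 : C2 ≤ |C2| + 1 := by linarith [le_abs_self C2]
    calc C2 * ((P.card : ℝ) * T ^ 2 / R ^ 2) ^ (1 / 4 : ℝ) * R ^ (1 / 2 : ℝ) / T ^ 2 *
          ((∫ η, ‖G₁ η‖ ^ 2) + ∫ η, ‖G₂ η‖ ^ 2)
        = C2 * (((P.card : ℝ) * T ^ 2 / R ^ 2) ^ (1 / 4 : ℝ) * (R ^ (1 / 2 : ℝ) / T ^ 2 *
          ((∫ η, ‖G₁ η‖ ^ 2) + ∫ η, ‖G₂ η‖ ^ 2))) := by ring
      _ ≤ _ := mul_le_mul_of_nonneg_right h1 (by positivity)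
  · rintro ⟨p, q⟩
    have h := hPt.dim T (WithLp.toLp 2 ![p * T, y₀]) (q * T) hT1
    rw [one_mul]
    refine le_trans ?_ h
    refine Nat.cast_le.2 (Finset.card_le_card ?_)
    intro i hi
    rw [Finset.mem_filter] at hi ⊢
    obtain ⟨hi, h1⟩ := hi
    simp only [Prod.mk.injEq] at h1
    have a1 := fl_pos (x := x i 0) hT0
    have a2 := fl_pos (x := t i) hT0
    rw [h1.1] at a1
    rw [h1.2] at a2
    refine ⟨hi, ?_, ?_⟩
    · intro k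
      fin_cases k
      · show |x i 0 - p * T| ≤ T
        rw [abs_of_nonneg a1.1]
        exact a1.2.le
      · exact hloc i hi
    · rw [abs_of_nonneg a2.1]
      exact a2.2.le
  · intro B hB Y1 Y2 hY1 hY2 hc hc' he
    exact h4 R g α a Y1 Y2 G₁ G₂ B x t hR hg hgR hα hG₁ hG₂ hs₁ hs₂ (Pt.mono hPt hB) (fun i hi => hev i (hB hi))
      hY1 hY2 hc hc' he
  · have h := htr R w g α G₁ A x t hR hw1 hα.le hG₁ hPt (fun i hi => (hev i hi).1)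
    refine h.trans ?_
    refine mul_le_mul (mul_le_mul_of_nonneg_right (by linarith) hR0.le) (by linarith) hI₁ (by positivity)

end Vale.Agent.P076.H523
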